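import Crest.Agent.N111.B.Two
import Crest.Agent.N111.A.Cmp
import Crest.Agent.N111.Stmts
import Crest.Agent.N111.VN.Emb
import Crest.Agent.N111.Lib.Geo2
import Crest.Agent.N111.Api.Row
import Crest.Agent.N111.Api.FP
import Crest.Agent.N111.I.Uniq
import Crest.Agent.N111.Lib.All

-- ▼ part N111/B/PP
section

/-!
# Row 111, module B: the ping-pong pair (`PPStmt`).
-/

set_option autoImplicit false

namespace Crest.Agent.N111.B

open MeasureTheory Topology Filter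
open scoped ENNReal InnerProductSpace

lemma card_le_three {p : ℝ} (hp : p ≠ 0) (q : ℝ) (F : Finset ℕ)
    (h : ∀ r ∈ F, |q + r * p| ≤ |p|) : F.card ≤ 3 := by
  have h3 : (Finset.Icc ⌈-1 - q / p⌉ (⌈-1 - q / p⌉ + 2)).card = 3 := by simp; omega
  rw [← h3]
  refine Finset.card_le_card_of_injOn (fun r : ℕ => (r : ℤ)) (fun r hr => ?_)
    fun _ _ _ _ h => Nat.cast_injective (R := ℤ) h
  have h1 : |q / p + r| ≤ 1 := by
    have e : q / p + r = (q + r * p) / p := by field_simp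
    rw [e, abs_div, div_le_one (abs_pos.2 hp)]
    exact h r hr
  obtain ⟨h2, h4⟩ := abs_le.1 h1
  simp only [Finset.coe_Icc, Set.mem_Icc]
  refine ⟨Int.ceil_le.2 (by push_cast; linarith), ?_⟩
  have := Int.le_ceil (-1 - q / p)
  have : ((r : ℤ) : ℝ) ≤ ((⌈-1 - q / p⌉ + 2 : ℤ) : ℝ) := by push_cast; linarith
  exact_mod_cast this

variable {H : Type} [NormedAddCommGroup H] [InnerProductSpace ℂ H] [CompleteSpace H]

/-- the slices of a subset of `G` -/
def sl (O : Set G) (γ : Γ) : Set X := {x | sec x * ι γ ∈ O}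

lemma measurableSet_sl {O : Set G} (hO : MeasurableSet O) (γ : Γ) : MeasurableSet (sl O γ) :=
  (measurable_sec.mul_const _) hO

/-- the rows of the covariant POVM on `G` -/
noncomputable def rw (π : URep Γ H) (d : H →L[ℂ] H) (O : Set G) (γ : Γ) : L2X H →L[ℂ] L2X H :=
  mul1 H (sl O γ) * amp (d * π γ⁻¹)

variable {π : URep Γ H} {d : H →L[ℂ] H}

omit [CompleteSpace H] in
lemma rw_coeFn {O : Set G} (hO : MeasurableSet O) (γ : Γ) (η : L2X H) [DecidablePred (· ∈ O)] :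
    ∀ᵐ x ∂μ, ‖rw π d O γ η x‖ ^ 2 = if sec x * ι γ ∈ O then ‖d (π γ⁻¹ (η x))‖ ^ 2 else 0 := by
  filter_upwards [mul1_coeFn (measurableSet_sl hO γ) (amp (d * π γ⁻¹) η),
    amp_coeFn (d * π γ⁻¹) η] with x h1 h2
  rw [rw, mul_apply_eq_comp, h1]
  split_ifs with hx
  · rw [Set.indicator_of_mem (by exact hx), h2, mul_apply_eq_comp]
  · rw [Set.indicator_of_notMem (by exact hx)]; simp

omit [CompleteSpace H] in
theorem rw_bound (hd : ∀ v, HasSum (fun γ => ‖d (π γ⁻¹ v)‖ ^ 2) (‖v‖ ^ 2)) {O : Set G}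
    (hO : MeasurableSet O) {g : ℕ → G} {B : ℕ}
    (hB : ∀ᵐ k ∂m, ∀ F : Finset ℕ, (∀ r ∈ F, g r * k ∈ O) → F.card ≤ B) (n : Finset ℕ) (η : L2X H)
    (F : Finset Γ) : ∑ γ ∈ F, ∑ r ∈ n, ‖rw π d O γ (ind π (g r) η)‖ ^ 2 ≤ B * ‖η‖ ^ 2 := by
  classical
  have e : ∀ (u : G) (ζ : L2X H), ‖ζ‖ = ‖tr H u⁻¹ ζ‖ := fun u ζ => by
    rw [← ind_triv, URep.norm_map]
  have h1 : ∀ (γ : Γ) (u : G), ∀ᵐ x ∂μ, ‖tr H u⁻¹ (rw π d O γ (ind π u η)) x‖ ^ 2
      = if u * (sec x * ι ((coc u x)⁻¹ * γ)) ∈ O then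
        ‖d (π ((coc u x)⁻¹ * γ)⁻¹ (η x))‖ ^ 2 else 0 := fun γ u => by
    filter_upwards [tr_coeFn u⁻¹ (rw π d O γ (ind π u η)), ae_smul u (rw_coeFn hO γ (ind π u η)),
      ind_coeFn' π u η] with x h1 h2 h3
    rw [h1, inv_inv, h2, h3, ← mul_assoc, mul_sec, mul_assoc, ← map_mul, ← π.mul_apply]
    simp
  rw [← Finset.sum_product']
  simp only [fun p : Γ × ℕ => e (g p.2) (rw π d O p.1 (ind π (g p.2) η))]
  refine sum_norm_sq_le_of_ae _ ?_
  filter_upwards [ae_all_iff.2 fun γ => ae_all_iff.2 fun r => h1 γ (g r),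
    ae_all_iff.2 (ae_pr_iff.1 hB)] with x h2 h3
  simp only [h2]
  let φ : ℕ → Γ → ℝ := fun r δ => if g r * (sec x * ι δ) ∈ O then ‖d (π δ⁻¹ (η x))‖ ^ 2 else 0
  have hφ : ∀ r δ, 0 ≤ φ r δ := fun r δ => by simp only [φ]; split_ifs <;> positivity
  let F' := n.biUnion fun r => F.image fun γ => (coc (g r) x)⁻¹ * γ
  calc ∑ p ∈ F ×ˢ n, φ p.2 ((coc (g p.2) x)⁻¹ * p.1)
      = ∑ r ∈ n, ∑ δ ∈ F.image fun γ => (coc (g r) x)⁻¹ * γ, φ r δ := by
        rw [Finset.sum_product_right]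
        exact Finset.sum_congr rfl fun r _ =>
          (Finset.sum_image (f := φ r) (g := fun γ => (coc (g r) x)⁻¹ * γ)
            fun _ _ _ _ h => mul_left_cancel h).symm
    _ ≤ ∑ r ∈ n, ∑ δ ∈ F', φ r δ := Finset.sum_le_sum fun r hr =>
        Finset.sum_le_sum_of_subset_of_nonneg (Finset.subset_biUnion_of_mem
          (fun r => F.image fun γ => (coc (g r) x)⁻¹ * γ) hr)
          fun _ _ _ => hφ _ _
    _ ≤ ∑ δ ∈ F', B * ‖d (π δ⁻¹ (η x))‖ ^ 2 := by
        rw [Finset.sum_comm]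
        refine Finset.sum_le_sum fun δ _ => ?_
        simp only [φ]
        rw [← Finset.sum_filter, Finset.sum_const, nsmul_eq_mul]
        gcongr
        exact h3 δ _ fun r hr => (Finset.mem_filter.1 hr).2
    _ ≤ B * ‖η x‖ ^ 2 := by
        rw [← Finset.mul_sum]
        gcongr
        exact sum_le_hasSum _ (fun _ _ => sq_nonneg _) (hd _)

omit [CompleteSpace H] in
theorem rw_add (hd : ∀ v, HasSum (fun γ => ‖d (π γ⁻¹ v)‖ ^ 2) (‖v‖ ^ 2)) {O : Set G}
    (hO : MeasurableSet O) (η : L2X H) :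
    HasSum (fun γ => ‖rw π d O γ η‖ ^ 2 + ‖rw π d Oᶜ γ η‖ ^ 2) (‖η‖ ^ 2) := by
  classical
  have h1 : HasSum (fun γ => ‖amp (d * π γ⁻¹) η‖ ^ 2) (‖η‖ ^ 2) := by
    refine hasSum_norm_sq_of_ae ?_
    filter_upwards [ae_all_iff.2 fun γ => amp_coeFn (d * π γ⁻¹) η] with x hx
    simpa only [hx, mul_apply_eq_comp] using hd (η x)
  convert h1 using 2 with γ
  simp only [norm_sq_eq_integral]
  rw [← integral_add (integrable_norm_sq _) (integrable_norm_sq _)]
  refine integral_congr_ae ?_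
  filter_upwards [rw_coeFn hO γ η, rw_coeFn hO.compl γ η, amp_coeFn (d * π γ⁻¹) η] with x h1 h2 h3
  rw [h1, h2, h3]
  by_cases hx : sec x * ι γ ∈ O <;> simp [hx]

theorem sum_conj_le {U : URep G (L2X H)} {a : L2X H →L[ℂ] L2X H} (ha : 0 ≤ a) {g : ℕ → G}
    {n : Finset ℕ} {B : ℝ} (h : ∀ η, ∑ r ∈ n, ‖a (U (g r) η)‖ ^ 2 ≤ B * ‖η‖ ^ 2) :
    ∑ r ∈ n, U (g r)⁻¹ * (a * a) * U (g r) ≤ (B : ℂ) • (1 : L2X H →L[ℂ] L2X H) := by
  refine le_smul_one ?_ fun η => le_of_eq_of_le ?_ (h η)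
  · simp only [star_sum, star_mul, URep.star_apply, inv_inv, sa_of_nonneg ha, mul_assoc]
  · rw [sum_apply, inner_sum, Complex.re_sum]
    refine Finset.sum_congr rfl fun r _ => ?_
    rw [mul_apply_eq_comp, mul_apply_eq_comp (U _), ← U.inner_left, re_inner_sq (sa_of_nonneg ha),
      Complex.ofReal_re]

theorem ppStmt : PPStmt := fun κ H _ _ _ _ _ S i j₀ I h => by
  obtain ⟨d, hdR, hd⟩ := exists_frame h.hj
  have key : ∀ O : Set G, MeasurableSet O → ∃ a : L2X H →L[ℂ] L2X H, 0 ≤ a ∧ a * a ∈ I.N ∧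
      ∀ η, HasSum (fun γ => ‖rw S.π d O γ η‖ ^ 2) (‖a η‖ ^ 2) := fun O hO => by
    obtain ⟨a, ha0, ha⟩ := exists_sqrt_rows (rw S.π d O) (C := 1) fun η F => by
      rw [one_mul]
      exact (Finset.sum_le_sum fun γ _ => le_add_of_nonneg_right (sq_nonneg _)).trans
        (sum_le_hasSum F (fun _ _ => by positivity) (rw_add hd hO η))
    have hc : ∀ c ∈ Cs S i, ∀ γ η, rw S.π d O γ (c η) = c (rw S.π d O γ η) := by
      rintro _ ⟨b, hb, g, hg, rfl⟩ γ η
      have hA := bm_indicator (measurableSet_sl hO γ)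
      have : Commute (rw S.π d O γ) (mulf H b * amp (S.R g)) := by
        refine Commute.mul_left (Commute.mul_right (mulf_fld hA (bm_isFld hb)) (mulf_amp hA _))
          (Commute.mul_right (mulf_amp hb _).symm (amp_comm ((hdR g hg).mul_left (S.comm _ _))))
      exact congrArg (fun T : L2X H →L[ℂ] L2X H => T η) this.eq
    refine ⟨a, ha0, ?_, ha⟩
    rw [N_eq h]
    intro c hc'
    have := commute_of_rows ha0 ha (hc c hc') (hc _ (star_mem_C hc'))
    exact (this.mul_left this).symm.eq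
  have hO : MeasurableSet {k : G | |k 2 0| ≤ |k 1 0|} :=
    measurableSet_le (by fun_prop) (by fun_prop)
  obtain ⟨a, ha0, haN, ha⟩ := key _ hO
  obtain ⟨b, hb0, hbN, hb⟩ := key _ hO.compl
  have hsq : ∀ c : L2X H →L[ℂ] L2X H, 0 ≤ c → 0 ≤ c * c := fun c hc => by
    nth_rw 1 [← sa_of_nonneg hc]
    exact star_mul_self_nonneg _
  have hne : ∀ k l, ∀ᵐ g : G ∂m, g k l ≠ 0 := fun k l => by
    rw [ae_iff]; simpa using m_entry_eq_zero k l
  refine ⟨_, haN, _, hbN, (3 : ℕ), hsq a ha0, hsq b hb0, eq_of_inner_self fun η => ?_,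
    fun n => ⟨?_, ?_⟩⟩
  · rw [add_apply, inner_add_right, re_inner_sq (sa_of_nonneg ha0), re_inner_sq (sa_of_nonneg hb0),
      ← Complex.ofReal_add, ((ha η).add (hb η)).unique (rw_add hd hO η), one_apply_eq_self,
      inner_self_c]
  · rw [h.U]
    refine sum_conj_le ha0 fun η => hasSum_le_of_sum_le (hasSum_sum fun r _ => ha _) ?_
    refine rw_bound hd hO ((hne 1 0).mono fun k hk F hF => card_le_three hk (k 2 0) F
      fun r hr => ?_) _ η
    simpa [tv_mul_apply] using hF r hr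
  · rw [h.U]
    refine sum_conj_le hb0 fun η => hasSum_le_of_sum_le (hasSum_sum fun r _ => hb _) ?_
    refine rw_bound hd hO.compl ((hne 2 0).mono fun k hk F hF => card_le_three hk (k 1 0) F
      fun r hr => le_of_lt ?_) _ η
    simpa [tv_mul_apply] using hF r hr

end Crest.Agent.N111.B
end

-- ▼ part N111/A/RedI
section

/-!
# Row 111, module A: the reduction of part (i).
-/

set_option autoImplicit false
set_option maxHeartbeats 400000

noncomputable section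

namespace Crest.Agent.N111.A

open scoped InnerProductSpace ComplexConjugate ENNReal ComplexOrder
open ContinuousLinearMap Crest.OperatorAlgebra Filter Topology

variable (θ : Iso Γ Γ)

theorem commute_P {x : Ell2 Γ →L[ℂ] Ell2 Γ} (hx : x ∈ LA Γ) : Commute (jj θ.p) x :=
  (LA_comm_RA hx (jj_mem_RA θ.p_mem)).symm

theorem commute_P_u (γ : Γ) : Commute (jj θ.p) (jj (θ.u γ)) :=
  commute_jj ((θ.p_mul_u γ).trans (θ.u_mul_p γ).symm)

/-- the source representation on the corner -/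
def cπ : URep Γ (Hp (jj θ.p)) :=
  cmpRep (jj_p_mul θ) (star_jj_p θ) (fun γ => jj (θ.u γ)) (commute_P_u θ)
    (by rw [θ.u_one, cmp_P]) (fun g h => by rw [θ.u_mul, jj_mul])
    fun g => by rw [← jj_star, θ.star_u]

/-- the target representation on the corner -/
def cR : URep (Unit → Γ) (Hp (jj θ.p)) :=
  cmpRep (jj_p_mul θ) (star_jj_p θ) (fun g => lam Γ (g ())) (fun _ => commute_P θ (lam_mem_LA _))
    (by rw [Pi.one_apply, map_one, cmp_one]) (fun g h => by rw [Pi.mul_apply, map_mul])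
    fun g => by rw [URep.star_apply, Pi.inv_apply]

theorem uq_mem (γ : Γ) : θ.u γ + (1 - θ.p) ∈ LA Γ := add_mem (θ.u_mem γ) (sub_mem (one_mem _) θ.p_mem)

/-- the left action making `ξ` invariant -/
def cL : URep Γ (Hp (jj θ.p)) :=
  cmpRep (jj_p_mul θ) (star_jj_p θ) (fun γ => θ.u γ + (1 - θ.p))
    (fun γ => commute_P θ (uq_mem θ γ))
    (by rw [θ.u_one, add_sub_cancel, cmp_one])
    (fun g h => by
      simp only [θ.u_mul, add_mul, mul_add, mul_sub, sub_mul, mul_one, one_mul, θ.p_mul_u,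
        θ.u_mul_p, θ.p_mul_p]
      abel)
    fun g => by rw [star_add, star_sub, star_one, θ.star_p, θ.star_u]

/-- the cyclic vector -/
def cξ : Hp (jj θ.p) := prj (jj_p_mul θ) (dt 1)

theorem coe_cξ : (cξ θ : Ell2 Γ) = θ.p (dt 1) := by
  rw [cξ, coe_prj, jj_hat θ.p_mem, θ.star_p]

theorem coe_cπ (γ : Γ) (η : Hp (jj θ.p)) : (cπ θ γ η : Ell2 Γ) = jj (θ.u γ) η :=
  coe_cmp_of (jj_p_mul θ) (commute_P_u θ γ) η

theorem coe_cR (g : Unit → Γ) (η : Hp (jj θ.p)) : (cR θ g η : Ell2 Γ) = lam Γ (g ()) η :=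
  coe_cmp_of (jj_p_mul θ) (commute_P θ (lam_mem_LA _)) η

theorem coe_cL (γ : Γ) (η : Hp (jj θ.p)) : (cL θ γ η : Ell2 Γ) = (θ.u γ + (1 - θ.p)) η :=
  coe_cmp_of (jj_p_mul θ) (commute_P θ (uq_mem θ γ)) η

theorem norm_cξ : ‖cξ θ‖ ^ 2 = θ.t := by rw [← Submodule.norm_coe, coe_cξ, Iso.t]

theorem inner_cR (g : Unit → Γ) (η : Hp (jj θ.p)) :
    ⟪cR θ g (cξ θ), η⟫_ℂ = (η : Ell2 Γ) (g ()) := by
  rw [Submodule.coe_inner, coe_cR, cξ, coe_prj, ← mul_apply_eq_comp,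
    ← (commute_P θ (lam_mem_LA _)).eq, mul_apply_eq_comp, inner_P (star_jj_p θ), P_coe, lam_dt,
    mul_one, inner_dt]

theorem cpars (η : Hp (jj θ.p)) : HasSum (fun g => ‖⟪cR θ g (cξ θ), η⟫_ℂ‖ ^ 2) (‖η‖ ^ 2) := by
  simp only [inner_cR]
  exact ((Equiv.funUnique Unit Γ).hasSum_iff (f := fun k => ‖(η : Ell2 Γ) k‖ ^ 2)).2
    (hasSum_normSq (η : Ell2 Γ))

theorem ccomm (γ : Γ) (g : Unit → Γ) : Commute (cπ θ γ) (cR θ g) :=
  commute_cmp (jj_p_mul θ) (commute_P_u θ γ) (commute_P θ (lam_mem_LA _))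
    (LA_comm_RA (lam_mem_LA _) (jj_mem_RA (θ.u_mem γ))).symm

theorem coe_cπ_cξ (γ : Γ) : (cπ θ γ (cξ θ) : Ell2 Γ) = θ.u γ⁻¹ (dt 1) := by
  rw [coe_cπ, coe_cξ, jj_apply_hat (θ.u_mem γ) θ.p_mem, θ.star_u, ← mul_apply_eq_comp, θ.p_mul_u]

theorem cerg : ErgData (Set.range (cR θ)) (cπ θ) (cL θ) (cξ θ) where
  comm := by rintro _ ⟨g, rfl⟩ γ; exact ccomm θ γ g
  L_mem γ T hT := by
    have h : ex (jj_p_mul θ) T ∈ RA Γ := fun k =>
      (commute_ex (jj_p_mul θ) (commute_P θ (lam_mem_LA k))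
        (Commute.symm (hT _ ⟨fun _ => k, rfl⟩))).symm
    exact commute_of_ex (jj_p_mul θ) (commute_P θ (uq_mem θ γ)) (LA_comm_RA (uq_mem θ γ) h).symm
  L_Ω γ := by
    ext1
    rw [coe_cL, coe_cπ_cξ, coe_cξ, ← mul_apply_eq_comp, add_mul, sub_mul, one_mul, θ.p_mul_u,
      sub_self, add_zero, ← θ.u_mul, mul_inv_cancel, θ.u_one]
  cyc := by
    rw [Submodule.dense_iff_topologicalClosure_eq_top, Submodule.topologicalClosure_eq_top_iff,
      eq_bot_iff]
    intro w hw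
    refine Subtype.ext (l2_ext fun k => ?_)
    exact (inner_cR θ (fun _ => k) w).symm.trans
      (hw _ (Submodule.subset_span ⟨_, ⟨_, rfl⟩, rfl⟩))
  erg v hv := by
    have h : ∀ γ, (θ.u γ + (1 - θ.p)) (jj (θ.u γ) v) = v := fun γ => by
      rw [← coe_cπ, ← coe_cL, hv]
    have c1 : ∀ {x : Ell2 Γ →L[ℂ] Ell2 Γ}, x ∈ LA Γ → ∀ η, jj x (θ.p η) = θ.p (jj x η) :=
      fun hx η => by
        rw [← mul_apply_eq_comp, ← LA_comm_RA θ.p_mem (jj_mem_RA hx), mul_apply_eq_comp]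
    have e1 : ∀ γ, θ.p * (θ.u γ + (1 - θ.p)) = θ.u γ * θ.p := fun γ => by
      rw [mul_add, mul_sub, mul_one, θ.p_mul_p, sub_self, add_zero, θ.p_mul_u, θ.u_mul_p]
    have e2 : ∀ γ, (1 - θ.p) * (θ.u γ + (1 - θ.p)) = 1 - θ.p := fun γ => by
      simp only [mul_add, mul_sub, sub_mul, mul_one, one_mul, θ.p_mul_u, θ.p_mul_p]
      abel
    have h2 : (1 - θ.p) (v : Ell2 Γ) = 0 := eq_zero_of_right_inv θ icc_Γ fun γ => by
      conv_rhs => rw [← h γ, ← mul_apply_eq_comp, e2]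
      simp only [sub_apply, one_apply_eq_self, map_sub, c1 (θ.u_mem γ)]
    obtain ⟨c, hc⟩ := eq_smul_of_ad_inv θ icc_Γ (w := θ.p v)
      (by rw [← mul_apply_eq_comp, θ.p_mul_p]) (by rw [c1 θ.p_mem, P_coe]) fun γ => by
        conv_rhs => rw [← h γ, ← mul_apply_eq_comp, e1]
        rw [c1 (θ.u_mem γ), mul_apply_eq_comp]
    refine ⟨c, Subtype.ext ?_⟩
    rw [sub_apply, one_apply_eq_self, sub_eq_zero] at h2
    rw [h2, hc, Submodule.coe_smul, coe_cξ]

/-- the averaged vector states -/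
def st {ι : Type} [Fintype ι] (w : ι → ℝ) (g : ι → Γ) :
    (Hp (jj θ.p) →L[ℂ] Hp (jj θ.p)) →ₗ[ℂ] ℂ where
  toFun T := (θ.t : ℂ)⁻¹ *
    ∑ i, w i * ⟪cR θ (fun _ => g i) (cξ θ), T (cR θ (fun _ => g i) (cξ θ))⟫_ℂ
  map_add' S T := by simp only [add_apply, inner_add_right, mul_add, Finset.sum_add_distrib]
  map_smul' c T := by
    simp only [smul_apply, inner_smul_right, RingHom.id_apply, smul_eq_mul, Finset.mul_sum,
      mul_left_comm c]

theorem st_apply {ι : Type} [Fintype ι] (w : ι → ℝ) (g : ι → Γ)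
    (T : Hp (jj θ.p) →L[ℂ] Hp (jj θ.p)) : st θ w g T = (θ.t : ℂ)⁻¹ *
    ∑ i, w i * ⟪cR θ (fun _ => g i) (cξ θ), T (cR θ (fun _ => g i) (cξ θ))⟫_ℂ := rfl

theorem inner_ex (T : Hp (jj θ.p) →L[ℂ] Hp (jj θ.p)) (k : Γ) :
    ⟪cR θ (fun _ => k) (cξ θ), T (cR θ (fun _ => k) (cξ θ))⟫_ℂ
      = ⟪lam Γ k (θ.p (dt 1)), ex (jj_p_mul θ) T (lam Γ k (θ.p (dt 1)))⟫_ℂ := by
  rw [Submodule.coe_inner, ← ex_coe (jj_p_mul θ) T, coe_cR, coe_cξ]

theorem ctr : ∃ ω : (Hp (jj θ.p) →L[ℂ] Hp (jj θ.p)) →ₗ[ℂ] ℂ, ω 1 = 1 ∧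
    (∀ T, 0 ≤ T → 0 ≤ (ω T).re) ∧ ∀ T, (∀ γ, Commute T (cπ θ γ)) →
      ∀ g, ω (cR θ g * T * cR θ g⁻¹) = ω T := by
  choose ι hι w g hw0 hw1 hw using fun n : ℕ =>
    exists_cavg icc_Γ θ.p_mem (Nat.one_div_pos_of_nat (α := ℝ) (n := n))
  have ht : (θ.t : ℂ) ≠ 0 := by exact_mod_cast θ.t_pos.ne'
  obtain ⟨ω, hω⟩ := exists_lim_linear (hyperfilter ℕ) (fun n => st θ (w n) (g n)) fun T =>
    ⟨‖(θ.t : ℂ)⁻¹‖ * (‖cξ θ‖ * (‖T‖ * ‖cξ θ‖)), fun n => by
      rw [st_apply, norm_mul]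
      refine mul_le_mul_of_nonneg_left ((norm_sum_le _ _).trans ?_) (norm_nonneg _)
      calc _ ≤ ∑ i, w n i * (‖cξ θ‖ * (‖T‖ * ‖cξ θ‖)) := Finset.sum_le_sum fun i _ => by
            rw [norm_mul, Complex.norm_real, Real.norm_of_nonneg (hw0 n i)]
            refine mul_le_mul_of_nonneg_left ((norm_inner_le_norm _ _).trans ?_) (hw0 n i)
            rw [URep.norm_map]
            exact mul_le_mul_of_nonneg_left ((T.le_opNorm _).trans_eq (by rw [URep.norm_map]))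
              (norm_nonneg _)
        _ = _ := by rw [← Finset.sum_mul, hw1, one_mul]⟩
  refine ⟨ω, tendsto_nhds_unique (hω 1) (tendsto_const_nhds.congr fun n => ?_), fun T hT => ?_,
    fun T hT k => ?_⟩
  · simp only [st_apply, one_apply_eq_self, inner_self_eq_norm_sq_to_K, URep.norm_map]
    have : ((‖cξ θ‖ : ℂ)) ^ 2 = θ.t := by exact_mod_cast norm_cξ θ
    rw [← Finset.sum_mul, ← Complex.ofReal_sum, hw1, Complex.ofReal_one, one_mul]
    exact ((congrArg _ this).trans (inv_mul_cancel₀ ht)).symm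
  · refine ge_of_tendsto' ((Complex.continuous_re.tendsto _).comp (hω T)) fun n => ?_
    refine (Complex.le_def.1 (?_ : (0 : ℂ) ≤ st θ (w n) (g n) T)).1
    rw [st_apply, ← Complex.ofReal_inv]
    refine mul_nonneg (Complex.zero_le_real.2 (inv_nonneg.2 θ.t_pos.le))
      (Finset.sum_nonneg fun i _ => mul_nonneg (Complex.zero_le_real.2 (hw0 n i)) ?_)
    exact ((nonneg_iff_isPositive T).1 hT).inner_nonneg_right _
  · have hT' : ∀ γ, Commute (ex (jj_p_mul θ) T) (jj (θ.u γ)) := fun γ =>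
      commute_ex (jj_p_mul θ) (commute_P_u θ γ) (hT γ)
    have h0 : Tendsto (fun n => st θ (w n) (g n) (cR θ k * T * cR θ k⁻¹) - st θ (w n) (g n) T)
        (hyperfilter ℕ) (𝓝 0) := by
      refine squeeze_zero_norm (a := fun n : ℕ => ‖(θ.t : ℂ)⁻¹ * (θ.t : ℂ)⁻¹‖ *
        (2 * (‖ex (jj_p_mul θ) T‖ * (1 / ((n : ℝ) + 1))))) (fun n => ?_) ?_
      · have := avg_inv θ icc_Γ hT' (hw0 n) (hw1 n) (g n) (θ.tau_p ▸ (hw n).le) (k ())
        refine le_trans (le_of_eq ?_) (mul_le_mul_of_nonneg_left this (norm_nonneg _))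
        have e : ∀ a : Γ, cR θ k⁻¹ (cR θ (fun _ => a) (cξ θ))
            = cR θ (fun _ => (k ())⁻¹ * a) (cξ θ) := fun a => by rw [← URep.mul_apply]; rfl
        rw [← norm_mul, st_apply, st_apply]
        simp only [mul_apply_eq_comp, URep.inner_right (cR θ) k, e, inner_ex]
        congr 1
        field_simp
      · simpa using (((tendsto_one_div_add_atTop_nhds_zero_nat.const_mul
          ‖ex (jj_p_mul θ) T‖).const_mul 2).const_mul ‖(θ.t : ℂ)⁻¹ * (θ.t : ℂ)⁻¹‖).mono_left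
          Nat.hyperfilter_le_atTop
    exact sub_eq_zero.1 (tendsto_nhds_unique ((hω _).sub (hω T)) h0)

/-- the corner setting -/
def csetting : Setting Unit (Hp (jj θ.p)) where
  π := cπ θ
  R := cR θ
  ξ := cξ θ
  comm := ccomm θ
  ξ_ne h := θ.p_hat_ne_zero (by rw [← coe_cξ, h]; rfl)
  pars := cpars θ
  orth i γ g hg hne := by
    obtain rfl : g = 1 := funext fun _ => hg
    have hγ : γ ≠ 1 := fun e => hne ⟨e, rfl⟩
    rw [map_one, one_apply_eq_self, Submodule.coe_inner, coe_cπ_cξ, coe_cξ, ← θ.u_one,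
      θ.inner_u_hat icc_Γ, dt_ne (inv_ne_one.2 hγ).symm, mul_zero]
  erg := ⟨cL θ, cerg θ⟩
  tr _ := by
    obtain ⟨ω, h1, h2, h3⟩ := ctr θ
    exact ⟨ω, h1, h2, fun T hT _ μ => h3 T hT _⟩

end Crest.Agent.N111.A

namespace Crest.Agent.N111

theorem redI : RedIStmt := by
  rintro p hp h1 h2 hne ⟨φ, hφ⟩
  let θ := Iso.ofCorner hp h1 h2 hφ
  refine ⟨_, _, _, inferInstance, A.csetting θ, ?_⟩
  by_contra h
  refine hne (θ.p_eq_one ?_)
  rw [← A.norm_cξ]
  exact one_le_pow₀ (not_lt.1 h)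

end Crest.Agent.N111
end
end

-- ▼ part N111/A/Model
section

/-!
# Row 111, module A: the three-leg model on `ℓ²(Λ³)`.
-/

set_option autoImplicit false

noncomputable section

namespace Crest.Agent.N111.A

open scoped InnerProductSpace ComplexConjugate ENNReal ComplexOrder
open ContinuousLinearMap Crest.OperatorAlgebra Filter Topology

/-! ### cut-off projections -/

section cut

variable {Y : Type*}

open Classical in
/-- multiplication by an indicator -/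
def cut (P : Y → Prop) : Ell2 Y →L[ℂ] Ell2 Y := mulOp fun y => if P y then 1 else 0

open Classical in
theorem bdd_ite (P : Y → Prop) : Bdd fun y => if P y then (1 : ℂ) else 0 :=
  ⟨1, fun y => by by_cases h : P y <;> simp [h]⟩

theorem cut_apply_pos {P : Y → Prop} (ξ : Ell2 Y) {y : Y} (h : P y) : cut P ξ y = ξ y := by
  rw [cut, (bdd_ite P).mulOp_apply, if_pos h, one_mul]

theorem cut_apply_neg {P : Y → Prop} (ξ : Ell2 Y) {y : Y} (h : ¬ P y) : cut P ξ y = 0 := by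
  rw [cut, (bdd_ite P).mulOp_apply, if_neg h, zero_mul]

theorem cut_dt_pos {P : Y → Prop} {y : Y} (h : P y) : cut P (dt y) = dt y := by
  rw [cut, (bdd_ite P).mulOp_dt, if_pos h, one_smul]

theorem cut_dt_neg {P : Y → Prop} {y : Y} (h : ¬ P y) : cut P (dt y) = 0 := by
  rw [cut, (bdd_ite P).mulOp_dt, if_neg h, zero_smul]

theorem star_cut (P : Y → Prop) : star (cut P) = cut P := by
  rw [cut, star_mulOp (bdd_ite P)]
  congr 1; ext y; split_ifs <;> simp

theorem inner_cut_left (P : Y → Prop) (ξ η : Ell2 Y) : ⟪cut P ξ, η⟫_ℂ = ⟪ξ, cut P η⟫_ℂ := by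
  rw [← adjoint_inner_right, ← star_eq_adjoint, star_cut]

theorem cut_mul_self (P : Y → Prop) : cut P * cut P = cut P := ext_dt fun y => by
  by_cases h : P y <;> simp [cut_dt_pos, cut_dt_neg, h]

theorem commute_cut {P : Y → Prop} {T : Ell2 Y →L[ℂ] Ell2 Y} {e : Y → Y}
    (hT : ∀ y, T (dt y) = dt (e y)) (h : ∀ y, P (e y) ↔ P y) : Commute (cut P) T :=
  ext_dt fun y => by
    by_cases hy : P y
    · simp [hT, cut_dt_pos hy, cut_dt_pos ((h y).2 hy)]
    · simp [hT, cut_dt_neg hy, cut_dt_neg (mt (h y).1 hy)]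

theorem commute_cut_cut (P Q : Y → Prop) : Commute (cut P) (cut Q) := ext_dt fun y => by
  by_cases h : P y <;> by_cases h' : Q y <;> simp [cut_dt_pos, cut_dt_neg, h, h']

end cut

theorem cyc_of_comm_le {K L : Type*} [Group K] [Group L] (σ : URep L (Ell2 K))
    (h : ∀ T ∈ σ.comm, T ∈ RA K) (w : Ell2 K) (hw : ∀ g, ⟪σ g (dt 1), w⟫_ℂ = 0) : w = 0 := by
  let U : Submodule ℂ (Ell2 K) := (Submodule.span ℂ (Set.range fun g => σ g (dt 1)))ᗮ
  have hU : ∀ x, x ∈ U ↔ ∀ g, ⟪σ g (dt 1), x⟫_ℂ = 0 := fun x =>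
    ⟨fun hx g => hx _ (Submodule.subset_span ⟨g, rfl⟩), fun hx u hu => by
      induction hu using Submodule.span_induction with
      | mem _ h => obtain ⟨g, rfl⟩ := h; exact hx g
      | zero => simp
      | add _ _ _ _ h1 h2 => rw [inner_add_left, h1, h2, add_zero]
      | smul c _ _ h => rw [inner_smul_left, h, mul_zero]⟩
  have hinv : ∀ g, ∀ x ∈ U, σ g x ∈ U := fun g x hx => (hU _).2 fun k => by
    rw [σ.inner_right, ← σ.mul_apply]; exact (hU x).1 hx _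
  have hE : U.starProjection ∈ σ.comm := fun g =>
    starProjection_comm U (hinv g) (by rw [σ.star_apply]; exact hinv _)
  have h0 : U.starProjection = 0 := RA_ext (h _ hE) (zero_mem _)
    ((U.starProjection_apply_eq_zero_iff).2 (Submodule.le_orthogonal_orthogonal _
      (Submodule.subset_span ⟨1, by simp⟩)))
  rw [← Submodule.starProjection_eq_self_iff.2 ((hU w).2 hw), h0, zero_apply]

theorem l2_eq_zero_of_infinite {Y : Type*} (f : Ell2 Y) {y : Y} {S : Set Y} (hS : S.Infinite)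
    (h : ∀ z ∈ S, f z = f y) : f y = 0 := by
  by_contra h0
  have ht := (hasSum_normSq f).summable.tendsto_cofinite_zero.eventually
    (gt_mem_nhds (pow_pos (norm_pos_iff.2 h0) 2))
  rw [eventually_cofinite] at ht
  exact hS (ht.subset fun z hz => by simp [h z hz])

/-- the trace as a linear functional -/
def tauL (K : Type*) [Group K] : (Ell2 K →L[ℂ] Ell2 K) →ₗ[ℂ] ℂ where
  toFun := tau
  map_add' := tau_add
  map_smul' := tau_smul

/-! ### legs -/

variable {Λ : Type} [Group Λ]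

/-- the three-fold product -/
abbrev K3 (Λ : Type) : Type := Fin 3 → Λ

/-- the `i`-th leg -/
def leg (i : Fin 3) : Λ →* K3 Λ := MonoidHom.mulSingle (fun _ => Λ) i

theorem leg_apply (i : Fin 3) (s : Λ) : leg i s = Pi.mulSingle i s := rfl

theorem leg_inj (i : Fin 3) : Function.Injective (leg i : Λ → K3 Λ) :=
  Pi.mulSingle_injective (M := fun _ => Λ) i

@[simp] theorem leg_same (i : Fin 3) (s : Λ) : leg i s i = s := by simp [leg_apply]

theorem leg_ne {i j : Fin 3} (h : j ≠ i) (s : Λ) : leg i s j = 1 := by simp [leg_apply, h]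

/-- the diagonal -/
def dia : Λ →* K3 Λ := Pi.constMonoidHom (Fin 3) Λ

@[simp] theorem dia_apply (s : Λ) (i : Fin 3) : dia s i = s := rfl

theorem dia_inj : Function.Injective (dia : Λ → K3 Λ) := fun _ _ h => congrFun h 0

theorem eq_legs (y : K3 Λ) : y = leg 0 (y 0) * leg 1 (y 1) * leg 2 (y 2) := by
  ext i; fin_cases i <;> simp [leg_apply]

theorem commute_lam_of_legs {T : Ell2 (K3 Λ) →L[ℂ] Ell2 (K3 Λ)} {y : K3 Λ}
    (h : ∀ j, y j = 1 ∨ ∀ s, Commute T (lam _ (leg j s))) : Commute T (lam _ y) := by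
  have key : ∀ j, Commute T (lam _ (leg j (y j))) := fun j =>
    (h j).elim (fun e => by rw [e, map_one, map_one]; exact Commute.one_right T) fun e => e _
  rw [eq_legs y, map_mul, map_mul]
  exact ((key 0).mul_right (key 1)).mul_right (key 2)

theorem commute_lam_leg {y : K3 Λ} {i : Fin 3} (h : y i = 1) (s : Λ) :
    Commute (lam _ y) (lam _ (leg i s)) := by
  refine Commute.map ?_ (lam (K3 Λ))
  ext j
  by_cases hj : j = i
  · subst hj; simp [h]
  · simp [leg_ne hj]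

/-- the projection onto `{y i = 1}` -/
def E (i : Fin 3) : Ell2 (K3 Λ) →L[ℂ] Ell2 (K3 Λ) := cut fun y => y i = 1

theorem E_dt_pos {i : Fin 3} {y : K3 Λ} (h : y i = 1) : E i (dt y) = dt y := cut_dt_pos h

theorem E_dt_neg {i : Fin 3} {y : K3 Λ} (h : y i ≠ 1) : E i (dt y) = 0 := cut_dt_neg h

theorem E_apply_pos {i : Fin 3} (ξ : Ell2 (K3 Λ)) {y : K3 Λ} (h : y i = 1) : E i ξ y = ξ y :=
  cut_apply_pos ξ h

theorem E_apply_neg {i : Fin 3} (ξ : Ell2 (K3 Λ)) {y : K3 Λ} (h : y i ≠ 1) : E i ξ y = 0 :=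
  cut_apply_neg ξ h

theorem E_dt_one (i : Fin 3) : E i (dt (1 : K3 Λ)) = dt 1 := E_dt_pos rfl

theorem commute_E_lam {y : K3 Λ} {i : Fin 3} (h : y i = 1) : Commute (E i) (lam _ y) :=
  commute_cut (lam_dt y) fun z => by simp [h]

theorem E_emb_E (i : Fin 3) {x : Ell2 Λ →L[ℂ] Ell2 Λ} (hx : x ∈ LA Λ) :
    E i * emb (leg i) (leg_inj i) x * E i = tau x • E i := by
  refine ext_dt fun y => ?_
  by_cases hy : y i = 1
  · refine l2_ext fun z => ?_
    simp only [mul_apply_eq_comp, smul_apply, E_dt_pos hy]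
    by_cases hz : z i = 1
    · rw [E_apply_pos _ hz, LA_dt (emb_mem _ _ _), emb_hat _ _ hx, rho_apply, l2_smul_apply]
      by_cases e : z = y
      · rw [e, mul_inv_cancel, ← map_one (leg i), push_apply, dt_self, mul_one, tau]
      · rw [dt_ne e, mul_zero]
        refine push_apply_of_not _ _ _ fun s hs => e ?_
        have : s = 1 := by simpa [hy, hz] using congrFun hs i
        rw [this, map_one] at hs
        exact mul_inv_eq_one.1 hs.symm
    · rw [E_apply_neg _ hz, l2_smul_apply, dt_ne (fun e : z = y => hz (e ▸ hy)), mul_zero]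
  · simp [E_dt_neg hy]

theorem E_push_dia (i : Fin 3) (ζ : Ell2 Λ) : E i (push dia dia_inj ζ) = ζ 1 • dt 1 := by
  have : E i ∘L push dia dia_inj = (innerSL ℂ (dt (1 : Λ))).smulRight (dt (1 : K3 Λ)) :=
    ext_dt fun s => by
      by_cases hs : s = 1
      · simp [hs, E_dt_one]
      · simp [E_dt_neg (y := dia s) hs, dt_ne (Ne.symm hs)]
  simpa using congrArg (fun T : Ell2 Λ →L[ℂ] Ell2 (K3 Λ) => T ζ) this

/-- the flip of the legs `1` and `2` on the group -/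
def sw (y : K3 Λ) : K3 Λ := y ∘ Equiv.swap 1 2

omit [Group Λ] in
@[simp] theorem sw_sw (y : K3 Λ) : sw (sw y) = y := by ext i; simp [sw]

omit [Group Λ] in
theorem sw_inj : Function.Injective (sw : K3 Λ → K3 Λ) := Function.LeftInverse.injective sw_sw

theorem sw_mul (y z : K3 Λ) : sw (y * z) = sw y * sw z := rfl
theorem sw_inv (y : K3 Λ) : sw y⁻¹ = (sw y)⁻¹ := rfl
@[simp] theorem sw_one : sw (1 : K3 Λ) = 1 := rfl
@[simp] theorem sw_dia (s : Λ) : sw (dia s) = dia s := rfl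

theorem sw_leg (i : Fin 3) (s : Λ) : sw (leg i s) = leg (Equiv.swap 1 2 i) s := by
  ext j; fin_cases i <;> fin_cases j <;> simp [sw, leg_apply, Equiv.swap_apply_def]

/-- the flip operator -/
def fl (Λ : Type) : Ell2 (K3 Λ) →L[ℂ] Ell2 (K3 Λ) :=
  pull (fun y => y ∘ Equiv.swap 1 2) (Function.LeftInverse.injective (g := (· ∘ Equiv.swap 1 2))
    fun y => by ext i; simp)

omit [Group Λ] in
@[simp] theorem fl_dt (y : K3 Λ) : fl Λ (dt y) = dt (sw y) := by
  have := pull_dt sw sw_inj (sw y)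
  rwa [sw_sw] at this

omit [Group Λ] in
theorem fl_mul_fl : fl Λ * fl Λ = 1 := ext_dt fun y => by simp

omit [Group Λ] in
theorem star_fl : star (fl Λ) = fl Λ := ext_dt fun y => (push_dt sw sw_inj y).trans (fl_dt y).symm

theorem fl_rho (k : K3 Λ) : fl Λ * rho _ k = rho _ (sw k) * fl Λ :=
  ext_dt fun y => by simp [sw_mul, sw_inv]

theorem fl_emb_fl (i : Fin 3) {x : Ell2 Λ →L[ℂ] Ell2 Λ} (hx : x ∈ LA Λ) :
    fl Λ * emb (leg i) (leg_inj i) x * fl Λ = emb (leg (Equiv.swap 1 2 i)) (leg_inj _) x := by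
  refine LA_ext (fun k => ?_) (emb_mem _ _ _) ?_
  · conv_lhs => rw [← sw_sw k, ← mul_assoc, ← mul_assoc, ← fl_rho, mul_assoc (fl Λ),
      emb_mem _ _ x, ← mul_assoc, mul_assoc _ _ (fl Λ), ← fl_rho, ← mul_assoc]
  · have : fl Λ ∘L push (leg i) (leg_inj i) = push (leg (Equiv.swap 1 2 i)) (leg_inj _) :=
      ext_dt fun s => by simp [sw_leg]
    simp only [mul_apply_eq_comp, fl_dt, sw_one, emb_hat _ _ hx]
    exact congrArg (fun T : Ell2 Λ →L[ℂ] Ell2 (K3 Λ) => T _) this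

/-! ### the representations -/

variable {v : URep Γ (Ell2 Λ)} (hv : IsGen v)

/-- the `i`-th leg representation -/
def Al (i : Fin 3) : URep Γ (Ell2 (K3 Λ)) := hv.embRep (leg i) (leg_inj i)

/-- the diagonal representation -/
def D : URep Γ (Ell2 (K3 Λ)) := hv.embRep dia dia_inj

theorem Al_mem (i : Fin 3) (μ : Γ) : Al hv i μ ∈ LA (K3 Λ) := emb_mem _ _ _

theorem D_mem (μ : Γ) : D hv μ ∈ LA (K3 Λ) := emb_mem _ _ _

theorem commute_Al {T : Ell2 (K3 Λ) →L[ℂ] Ell2 (K3 Λ)} {i : Fin 3}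
    (h : ∀ s, Commute T (lam _ (leg i s))) (μ : Γ) : Commute T (Al hv i μ) :=
  commute_emb _ _ h (hv.mem μ)

theorem commute_leg_of_Al {T : Ell2 (K3 Λ) →L[ℂ] Ell2 (K3 Λ)} {i : Fin 3}
    (h : ∀ μ, Commute T (Al hv i μ)) (s : Λ) : Commute T (lam _ (leg i s)) := by
  simpa using hv.commute_emb _ (leg_inj i) h (lam_mem_LA s)

theorem Al_comm {i j : Fin 3} (h : i ≠ j) (γ μ : Γ) : Commute (Al hv i γ) (Al hv j μ) :=
  commute_Al hv (fun s => (commute_Al hv (commute_lam_leg (leg_ne h s)) γ).symm) μ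

/-- the target representation -/
def R : URep (Fin 3 → Γ) (Ell2 (K3 Λ)) :=
  URep.ofStar (fun g => Al hv 0 (g 0) * Al hv 1 (g 1) * Al hv 2 (g 2)) (by simp)
    (fun g h => by
      simp only [Pi.mul_apply, map_mul, mul_assoc]
      rw [(Al_comm hv (by decide : (0 : Fin 3) ≠ 1) _ _).left_comm,
        (Al_comm hv (by decide : (1 : Fin 3) ≠ 2) (h 1) _).left_comm,
        (Al_comm hv (by decide : (0 : Fin 3) ≠ 2) _ _).left_comm])
    fun g => by
      simp only [star_mul, URep.star_apply, Pi.inv_apply, mul_assoc]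
      rw [(Al_comm hv (by decide : (1 : Fin 3) ≠ 0) _ _).eq,
        (Al_comm hv (by decide : (2 : Fin 3) ≠ 0) _ _).left_comm,
        (Al_comm hv (by decide : (2 : Fin 3) ≠ 1) _ _).eq]

theorem R_apply (g : Fin 3 → Γ) : R hv g = Al hv 0 (g 0) * Al hv 1 (g 1) * Al hv 2 (g 2) := rfl

theorem R_single (i : Fin 3) (μ : Γ) : R hv (Pi.mulSingle i μ) = Al hv i μ := by
  fin_cases i <;> simp [R_apply]

theorem R_mem (g : Fin 3 → Γ) : R hv g ∈ LA (K3 Λ) :=
  mul_mem (mul_mem (Al_mem hv _ _) (Al_mem hv _ _)) (Al_mem hv _ _)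

theorem commute_R {T : Ell2 (K3 Λ) →L[ℂ] Ell2 (K3 Λ)} {g : Fin 3 → Γ}
    (h : ∀ j, g j = 1 ∨ ∀ s, Commute T (lam _ (leg j s))) : Commute T (R hv g) := by
  have key : ∀ j, Commute T (Al hv j (g j)) := fun j =>
    (h j).elim (fun e => by rw [e, map_one]; exact Commute.one_right T)
      fun e => commute_Al hv e _
  exact ((key 0).mul_right (key 1)).mul_right (key 2)

theorem R_comm_le : ∀ T ∈ (R hv).comm, T ∈ RA (K3 Λ) := fun T hT _ =>
  (commute_lam_of_legs fun j => Or.inr (commute_leg_of_Al hv fun μ => by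
    rw [← R_single]; exact (hT _).symm)).symm

theorem commute_E_R {g : Fin 3 → Γ} {i : Fin 3} (h : g i = 1) : Commute (E i) (R hv g) :=
  commute_R hv fun j => by
    by_cases e : j = i
    · exact Or.inl (e ▸ h)
    · exact Or.inr fun s => commute_E_lam (leg_ne (Ne.symm e) s)

theorem E_R_pos {g : Fin 3 → Γ} {i : Fin 3} (h : g i = 1) : E i (R hv g (dt 1)) = R hv g (dt 1) := by
  rw [← mul_apply_eq_comp, (commute_E_R hv h).eq, mul_apply_eq_comp, E_dt_one]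

variable (hr : IsReg v (dt 1))

omit hv in
include hr in
theorem tau_v {γ : Γ} (h : γ ≠ 1) : tau (v γ) = 0 := by
  simpa [tau] using hr.on.2 h.symm

include hr in
theorem E_R_neg {g : Fin 3 → Γ} {i : Fin 3} (h : g i ≠ 1) : E i (R hv g (dt 1)) = 0 := by
  have e : g = Pi.mulSingle i (g i) * Function.update g i 1 := by
    ext1 j
    by_cases hj : j = i
    · subst hj; simp
    · simp [hj]
  have h1 := congrArg (fun T : Ell2 (K3 Λ) →L[ℂ] Ell2 (K3 Λ) =>
    T (R hv (Function.update g i 1) (dt 1))) (E_emb_E i (hv.mem (g i)))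
  simp only [mul_apply_eq_comp, E_R_pos hv (Function.update_self i 1 g), tau_v hr h, zero_smul,
    zero_apply] at h1
  rw [e, URep.mul_apply, R_single]
  exact h1

include hr in
theorem tau_R {g : Fin 3 → Γ} (h : g ≠ 1) : tau (R hv g) = 0 := by
  obtain ⟨i, hi⟩ := Function.ne_iff.1 h
  rw [tau_eq_inner, ← E_dt_one i, E, inner_cut_left, ← E, E_dt_one, E_R_neg hv hr hi,
    inner_zero_right]

include hr in
theorem isReg_R : IsReg (R hv) (dt 1) :=
  ⟨⟨fun g => by simp, fun g h hne => by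
    have := tau_R hv hr (g := g⁻¹ * h) (fun e => hne (inv_mul_eq_one.1 e))
    rwa [tau_eq_inner, URep.mul_apply, ← URep.inner_left] at this⟩,
    cyc_of_comm_le _ (R_comm_le hv)⟩

theorem jj_D_hat (γ : Γ) : jj (D hv γ⁻¹) (dt 1) = push dia dia_inj (v γ (dt 1)) := by
  rw [← URep.star_apply, ← Rm, Rm_hat_LA (D_mem hv γ)]
  exact emb_hat _ _ (hv.mem γ)

theorem commute_rho_of_π {T : Ell2 (K3 Λ) →L[ℂ] Ell2 (K3 Λ)}
    (h : ∀ γ, Commute T ((D hv).jj γ)) (s : Λ) : Commute T (rho _ (dia s)) := by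
  simpa using hv.commute_jj_emb _ dia_inj h (lam_mem_LA s)

theorem commute_π {T : Ell2 (K3 Λ) →L[ℂ] Ell2 (K3 Λ)} (h : ∀ s, Commute T (rho _ (dia s)))
    (γ : Γ) : Commute T ((D hv).jj γ) := commute_jj_emb _ _ h (hv.mem γ)

theorem erg_D (hΛ : IsICC Λ) (η : Ell2 (K3 Λ)) (h : ∀ γ, D hv γ ((D hv).jj γ η) = η) :
    ∃ c : ℂ, η = c • dt 1 := by
  have h1 : ∀ γ, D hv γ η = Rm (D hv γ) η := fun γ => by
    have := congrArg ((D hv).jj γ⁻¹) (h γ)
    rw [URep.jj_apply, ← mul_apply_eq_comp,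
      ← LA_comm_RA (D_mem hv γ) (jj_mem_RA (D_mem hv _)), mul_apply_eq_comp, ← URep.jj_apply,
      URep.inv_apply_apply] at this
    rw [this, Rm, URep.star_apply]; rfl
  have h2 : ∀ s z, η ((dia s)⁻¹ * z) = η (z * (dia s)⁻¹) := fun s z => by
    simpa using congrArg (fun ξ : Ell2 (K3 Λ) => ξ z) (hv.central dia dia_inj h1 (lam_mem_LA s))
  refine ⟨η 1, l2_ext fun y => ?_⟩
  by_cases hy : y = 1
  · simp [hy]
  · rw [l2_smul_apply, dt_ne hy, mul_zero]
    obtain ⟨i, hi⟩ := Function.ne_iff.1 hy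
    refine l2_eq_zero_of_infinite η (S := {z | ∃ s, z = dia s * y * (dia s)⁻¹})
      (Set.Infinite.of_image (fun z => z i) ((hΛ _ hi).mono ?_)) ?_
    · rintro _ ⟨s, rfl⟩
      exact ⟨_, ⟨s, rfl⟩, rfl⟩
    · rintro _ ⟨s, rfl⟩
      rw [← h2, inv_mul_cancel_left]

/-- erasing a coordinate -/
def era (i : Fin 3) : K3 Λ →* K3 Λ where
  toFun k := Function.update k i 1
  map_one' := Function.update_eq_self i _
  map_mul' a b := by rw [← Function.update_mul, mul_one]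

/-- the simply transitive action commuting with leg `i` -/
def σ (i : Fin 3) : URep (K3 Λ) (Ell2 (K3 Λ)) :=
  ((lam _).comp (era i)).mulRep ((rho _).comp (dia.comp (Pi.evalMonoidHom _ i)))
    fun _ _ => LA_comm_RA (lam_mem_LA _) (rho_mem_RA _)

theorem σ_apply (i : Fin 3) (k : K3 Λ) :
    σ i k = lam _ (Function.update k i 1) * rho _ (dia (k i)) := rfl

theorem isReg_σ (i : Fin 3) : IsReg (σ (Λ := Λ) i) (dt 1) := by
  let β : K3 Λ → K3 Λ := fun k => Function.update k i 1 * (dia (k i))⁻¹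
  have e : ∀ k, σ i k (dt 1) = dt (β k) := fun k => by simp [σ_apply, β]
  have hinj : Function.Injective β := fun a b h => by
    have h1 : a i = b i := by simpa [β] using congrFun h i
    ext j
    by_cases hj : j = i
    · rw [hj, h1]
    · simpa [β, hj, h1] using congrFun h j
  have hsurj : Function.Surjective β := fun y =>
    ⟨Function.update (y * dia (y i)⁻¹) i (y i)⁻¹, by
      ext j
      by_cases hj : j = i
      · subst hj; simp [β]
      · simp [β, hj]⟩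
  refine ⟨by simpa only [e, Function.comp_def] using orthonormal_dt.comp β hinj,
    fun w hw => eq_zero_of_inner_dt fun y => ?_⟩
  obtain ⟨k, rfl⟩ := hsurj y
  rw [← e, hw]

/-- the three-leg setting -/
def setting (hΛ : IsICC Λ) : Setting (Fin 3) (Ell2 (K3 Λ)) where
  π := (D hv).jj
  R := R hv
  ξ := dt 1
  comm γ g := (LA_comm_RA (R_mem hv g) (jj_mem_RA (D_mem hv γ))).symm
  ξ_ne := norm_ne_zero_iff.1 (by simp)
  pars := (isReg_R hv hr).hasSum_normSq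
  orth i γ g hg hne := by
    rw [URep.inner_right, URep.jj_apply, jj_D_hat, ← E_R_pos hv hg, E, ← inner_cut_left, ← E,
      E_push_dia, inner_smul_left, ← tau_eq_inner, ← tau]
    by_cases hγ : γ = 1
    · rw [tau_R hv hr fun e => hne ⟨hγ, e⟩, mul_zero]
    · rw [tau_v hr hγ, map_zero, zero_mul]
  erg := ⟨D hv,
    { comm := by
        rintro _ ⟨g, rfl⟩ γ
        exact (LA_comm_RA (R_mem hv g) (jj_mem_RA (D_mem hv γ))).symm
      L_mem := fun γ T hT =>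
        (LA_comm_RA (D_mem hv γ) (R_comm_le hv T fun g => hT _ ⟨g, rfl⟩)).symm
      L_Ω := fun γ => by
        rw [URep.jj_apply, ← Rm_star_eq, Rm_hat_LA (star_mem (D_mem hv γ)), URep.star_apply,
          URep.apply_inv_apply]
      cyc := by
        rw [Submodule.dense_iff_topologicalClosure_eq_top,
          Submodule.topologicalClosure_eq_top_iff, eq_bot_iff]
        exact fun w hw => (isReg_R hv hr).tot w fun g =>
          hw _ (Submodule.subset_span ⟨_, ⟨g, rfl⟩, rfl⟩)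
      erg := erg_D hv hΛ }⟩
  tr i := ⟨tauL _, tau_one, fun T hT => (Complex.le_def.1 (tau_nonneg hT)).1, fun T h1 h2 μ => by
    have hT : T ∈ (σ i).comm := fun k => by
      refine (Commute.mul_right (commute_lam_of_legs fun j => ?_) (commute_rho_of_π hv h1 _)).symm
      by_cases e : j = i
      · exact Or.inl (e ▸ Function.update_self _ _ _)
      · refine Or.inr (commute_leg_of_Al hv fun μ => ?_)
        rw [← R_single]
        exact h2 _ (by simp [Ne.symm e])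
    have hS : ∀ μ, Al hv i μ ∈ (σ i).comm := fun μ k =>
      Commute.mul_left (commute_Al hv (commute_lam_leg (Function.update_self _ _ _)) μ)
        (LA_comm_RA (Al_mem hv i μ) (rho_mem_RA _)).symm
    have := (isReg_σ i).trace (hS μ) (mul_mem hT (hS μ⁻¹))
    rw [← Pi.mulSingle_inv, R_single, R_single]
    simpa [tauL, tau] using this⟩

theorem setting_flip (hΛ : IsICC Λ) : (setting hv hr hΛ).Flip (fl Λ) where
  s_sa := star_fl
  s_s := fl_mul_fl
  s_π := commute_π hv fun s => fl_rho (dia s)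
  s_ξ := fl_dt 1
  s_R g := by
    have e : ∀ i μ, fl Λ * Al hv i μ * fl Λ = Al hv (Equiv.swap 1 2 i) μ := fun i μ =>
      fl_emb_fl i (hv.mem μ)
    have e2 : ∀ a b c : Ell2 (K3 Λ) →L[ℂ] Ell2 (K3 Λ), fl Λ * (a * b * c) * fl Λ
        = fl Λ * a * fl Λ * (fl Λ * b * fl Λ) * (fl Λ * c * fl Λ) := fun a b c => by
      simp only [mul_assoc, ← mul_assoc (fl Λ) (fl Λ), fl_mul_fl, one_mul]
    change fl Λ * R hv g * fl Λ = R hv _
    rw [R_apply, e2, e, e, e, R_apply, mul_assoc, mul_assoc]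
    simpa [Equiv.swap_apply_def] using
      congrArg (Al hv 0 (g 0) * ·) (Al_comm hv (by decide : (2 : Fin 3) ≠ 1) (g 1) (g 2)).eq
  on := (isReg_R hv hr).on

end Crest.Agent.N111.A
end
end

-- ▼ part N111/A/RedII
section

/-!
# Row 111, module A: the reduction of part (ii).
-/

set_option autoImplicit false
set_option maxHeartbeats 400000

noncomputable section

namespace Crest.Agent.N111.A

open scoped InnerProductSpace ComplexConjugate ENNReal ComplexOrder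
open ContinuousLinearMap Crest.OperatorAlgebra Filter Topology

variable {Λ : Type} [Group Λ]

theorem eq_of_norm_eq {H : Type*} [NormedAddCommGroup H] [InnerProductSpace ℂ H] [CompleteSpace H]
    {S T : H →L[ℂ] H} (hS : 0 ≤ S) (hT : 0 ≤ T) (h : ∀ η, ‖S η‖ ^ 2 = ‖T η‖ ^ 2) : S = T := by
  have key : ∀ {S : H →L[ℂ] H}, 0 ≤ S → ∀ η, ⟪(S * S) η, η⟫_ℂ = ((‖S η‖ ^ 2 : ℝ) : ℂ) := by
    intro S hS η
    rw [mul_apply_eq_comp, ← adjoint_inner_right, ← star_eq_adjoint,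
      (IsSelfAdjoint.of_nonneg hS).star_eq, inner_self_eq_norm_sq_to_K]; simp
  have e : S * S = T * T := by
    apply ContinuousLinearMap.coe_injective
    exact (ext_inner_map _ _).1 fun η => (key hS η).trans (by rw [h]; exact (key hT η).symm)
  rw [← CFC.sqrt_mul_self S hS, e, CFC.sqrt_mul_self T hT]

theorem cut_nonneg {Y : Type*} (P : Y → Prop) : 0 ≤ cut P := by
  have := star_mul_self_nonneg (cut P)
  rwa [star_cut, cut_mul_self] at this

/-- the graph embedding `a ↦ (a, b a, c a)` -/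
def gr (b c : Λ) (a : Λ) : K3 Λ := ![a, b * a, c * a]

theorem gr_inj (b c : Λ) : Function.Injective (gr b c) := fun _ _ h => congrFun h 0

/-- the isometry onto a graph -/
def I (b c : Λ) : Ell2 Λ →L[ℂ] Ell2 (K3 Λ) := push (gr b c) (gr_inj b c)

@[simp] theorem I_dt (b c a : Λ) : I b c (dt a) = dt (gr b c a) := push_dt _ _ _

/-- the slices -/
def slice (b c : Λ) (T : Ell2 (K3 Λ) →L[ℂ] Ell2 (K3 Λ)) : Ell2 Λ →L[ℂ] Ell2 Λ :=
  adjoint (I b c) ∘L T ∘L I b c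

theorem inner_slice (b c : Λ) (T : Ell2 (K3 Λ) →L[ℂ] Ell2 (K3 Λ)) (ζ ζ' : Ell2 Λ) :
    ⟪ζ, slice b c T ζ'⟫_ℂ = ⟪I b c ζ, T (I b c ζ')⟫_ℂ := by
  rw [slice, comp_apply, comp_apply, adjoint_inner_right]

theorem slice_nonneg (b c : Λ) {T : Ell2 (K3 Λ) →L[ℂ] Ell2 (K3 Λ)} (hT : 0 ≤ T) :
    0 ≤ slice b c T :=
  (nonneg_iff_isPositive _).2 (((nonneg_iff_isPositive _).1 hT).adjoint_conj (I b c))

theorem op_ext {H : Type*} [NormedAddCommGroup H] [InnerProductSpace ℂ H] {S T : H →L[ℂ] H}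
    (h : ∀ ζ ζ', ⟪ζ, S ζ'⟫_ℂ = ⟪ζ, T ζ'⟫_ℂ) : S = T :=
  ContinuousLinearMap.ext fun ζ' => ext_inner_left ℂ fun ζ => h ζ ζ'

theorem ext_dt' {X E : Type*} [NormedAddCommGroup E] [NormedSpace ℂ E] {S T : Ell2 X →L[ℂ] E}
    (h : ∀ x, S (dt x) = T (dt x)) (ξ : Ell2 X) : S ξ = T ξ := by rw [ext_dt h]

theorem lam_I (b c r : Λ) (ζ : Ell2 Λ) : lam _ (leg 2 r) (I b c ζ) = I b (r * c) ζ :=
  ext_dt' (S := lam _ (leg 2 r) ∘L I b c) (fun a => by
    simp only [comp_apply, I_dt, lam_dt]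
    congr 1; ext i; fin_cases i <;> simp [gr, leg_apply, mul_assoc]) ζ

theorem I_lam (b c r : Λ) (ζ : Ell2 Λ) :
    I b c (lam Λ r ζ) = lam _ (leg 0 r) (I (b * r) (c * r) ζ) :=
  ext_dt' (S := I b c ∘L lam Λ r) (T := lam _ (leg 0 r) ∘L I (b * r) (c * r)) (fun a => by
    simp only [comp_apply, I_dt, lam_dt]
    congr 1; ext i; fin_cases i <;> simp [gr, leg_apply, mul_assoc]) ζ

theorem fl_I (b c : Λ) (ζ : Ell2 Λ) : fl Λ (I b c ζ) = I c b ζ :=
  ext_dt' (S := fl Λ ∘L I b c) (fun a => by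
    simp only [comp_apply, I_dt, fl_dt]
    congr 1; ext i; fin_cases i <;> simp [gr, sw, Equiv.swap_apply_def]) ζ

theorem lam_push_dia (b c a : Λ) :
    lam _ (gr b c a) ∘L push dia dia_inj = I b c ∘L lam Λ a := ext_dt fun s => by
  simp only [comp_apply, I_dt, lam_dt, push_dt]
  congr 1; ext i; fin_cases i <;> simp [gr, mul_assoc]

theorem jj_emb_I (b c : Λ) {x : Ell2 Λ →L[ℂ] Ell2 Λ} (hx : x ∈ LA Λ) (ζ : Ell2 Λ) :
    jj (emb dia dia_inj x) (I b c ζ) = I b c (jj x ζ) := by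
  have : jj (emb dia dia_inj x) ∘L I b c = I b c ∘L jj x := ext_dt fun a => by
    rw [comp_apply, comp_apply, I_dt, RA_dt (jj_mem_RA (emb_mem _ _ _)), RA_dt (jj_mem_RA hx),
      jj_apply, jj_apply, Jc_dt, Jc_dt, inv_one, inv_one, emb_hat _ _ hx, Jc_push, ← comp_apply,
      lam_push_dia, comp_apply]
  rw [← comp_apply, this, comp_apply]

/-- the projection onto `{y i = b * y 0}` -/
def F (i : Fin 3) (b : Λ) : Ell2 (K3 Λ) →L[ℂ] Ell2 (K3 Λ) := cut fun y => y i = b * y 0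

theorem F1_I (b c : Λ) (ζ : Ell2 Λ) : F 1 b (I b c ζ) = I b c ζ :=
  ext_dt' (S := F 1 b ∘L I b c) (fun a => by
    simp only [comp_apply, I_dt]; exact cut_dt_pos (by simp [gr])) ζ

theorem F2_I (b c : Λ) (ζ : Ell2 Λ) : F 2 c (I b c ζ) = I b c ζ :=
  ext_dt' (S := F 2 c ∘L I b c) (fun a => by
    simp only [comp_apply, I_dt]; exact cut_dt_pos (by simp [gr])) ζ

theorem I_adjoint (b c : Λ) (η : Ell2 (K3 Λ)) : I b c (adjoint (I b c) η) = F 1 b (F 2 c η) := by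
  refine ext_dt' (S := I b c ∘L adjoint (I b c)) (T := F 1 b ∘L F 2 c) (fun y => ?_) η
  simp only [comp_apply, I, adjoint_push]
  by_cases h : y 1 = b * y 0 ∧ y 2 = c * y 0
  · have e : y = gr b c (y 0) := by ext i; fin_cases i <;> simp [gr, h.1, h.2]
    rw [F, F, cut_dt_pos (P := fun y : K3 Λ => y 2 = c * y 0) h.2,
      cut_dt_pos (P := fun y : K3 Λ => y 1 = b * y 0) h.1, e, pull_dt, push_dt]
  · rw [pull_dt_of_not _ _ (by rintro a rfl; exact h ⟨by simp [gr], by simp [gr]⟩), map_zero]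
    by_cases h2 : y 2 = c * y 0
    · rw [F, F, cut_dt_pos (P := fun y : K3 Λ => y 2 = c * y 0) h2,
        cut_dt_neg (P := fun y : K3 Λ => y 1 = b * y 0) fun h1 => h ⟨h1, h2⟩]
    · rw [F, F, cut_dt_neg (P := fun y : K3 Λ => y 2 = c * y 0) h2, map_zero]

theorem fl_F (b : Λ) : fl Λ * F 2 b = F 1 b * fl Λ := ext_dt fun y => by
  by_cases h : y 2 = b * y 0
  · have h' : sw y 1 = b * sw y 0 := by simpa [sw, Equiv.swap_apply_def] using h
    simp [F, cut_dt_pos (P := fun y : K3 Λ => y 2 = b * y 0) h,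
      cut_dt_pos (P := fun y : K3 Λ => y 1 = b * y 0) h']
  · have h' : ¬ sw y 1 = b * sw y 0 := by simpa [sw, Equiv.swap_apply_def] using h
    simp [F, cut_dt_neg (P := fun y : K3 Λ => y 2 = b * y 0) h,
      cut_dt_neg (P := fun y : K3 Λ => y 1 = b * y 0) h']

theorem inner_conj_eq {H K : Type*} [NormedAddCommGroup H] [InnerProductSpace ℂ H] [Group K]
    (σ : URep K H) (k : K) {T : H →L[ℂ] H} (h : Commute (σ k) T) (ζ ζ' : H) :
    ⟪σ k ζ, T (σ k ζ')⟫_ℂ = ⟪ζ, T ζ'⟫_ℂ := by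
  rw [← mul_apply_eq_comp, ← h.eq, mul_apply_eq_comp, σ.inner_map_map]

/-- the operators of the end game -/
structure Good (T : Ell2 (K3 Λ) →L[ℂ] Ell2 (K3 Λ)) : Prop where
  c0 : ∀ r, Commute (lam _ (leg 0 r)) T
  c2 : ∀ r, Commute (lam _ (leg 2 r)) T
  cF : ∀ c, Commute (F 2 c) T

variable {T T' : Ell2 (K3 Λ) →L[ℂ] Ell2 (K3 Λ)}

theorem Good.slice_eq (h : Good T) (b c : Λ) : slice b c T = slice b 1 T :=
  op_ext fun ζ ζ' => by
    rw [inner_slice, inner_slice, ← inner_conj_eq _ _ (h.c2 c) (I b 1 ζ), lam_I, lam_I, mul_one]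

theorem Good.conj_lam (h : Good T) (b s : Λ) :
    lam Λ s⁻¹ * slice b 1 T * lam Λ s = slice (b * s) 1 T :=
  op_ext fun ζ ζ' => by
    rw [mul_apply_eq_comp, mul_apply_eq_comp, ← URep.inner_left, inner_slice, I_lam, I_lam,
      inner_conj_eq _ _ (h.c0 s), ← inner_slice, h.slice_eq]

theorem Good.diag (h : Good T) (y : K3 Λ) :
    ⟪dt y, T (dt y)⟫_ℂ = ⟪dt (leg 1 (y 1)), T (dt (leg 1 (y 1)))⟫_ℂ := by
  have e : y = leg 0 (y 0) * (leg 2 (y 2) * leg 1 (y 1)) := by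
    ext i; fin_cases i <;> simp [leg_apply]
  conv_lhs => rw [e, ← lam_dt, inner_conj_eq _ _ (h.c0 _), ← lam_dt, inner_conj_eq _ _ (h.c2 _)]

theorem slice_fl (b c : Λ) (T : Ell2 (K3 Λ) →L[ℂ] Ell2 (K3 Λ)) :
    slice b c (fl Λ * T * fl Λ) = slice c b T :=
  op_ext fun ζ ζ' => by
    rw [inner_slice, inner_slice, mul_apply_eq_comp, mul_apply_eq_comp, fl_I,
      ← adjoint_inner_left, ← star_eq_adjoint, star_fl, fl_I]

theorem slice_commute {S : Ell2 (K3 Λ) →L[ℂ] Ell2 (K3 Λ)} (b c : Λ) (h1 : Commute (F 2 c) T)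
    (h2 : Commute (F 1 b) S) (h : Commute T S) : Commute (slice b c T) (slice b c S) := by
  have a1 : ∀ η, F 2 c (T η) = T (F 2 c η) := fun η => congrArg (fun A => A η) h1.eq
  have a2 : ∀ η, F 1 b (S η) = S (F 1 b η) := fun η => congrArg (fun A => A η) h2.eq
  have a3 : ∀ η, F 1 b (F 2 c η) = F 2 c (F 1 b η) := fun η =>
    congrArg (fun A : Ell2 (K3 Λ) →L[ℂ] Ell2 (K3 Λ) => A η) (commute_cut_cut _ _).eq
  have a4 : ∀ η, T (S η) = S (T η) := fun η => congrArg (fun A => A η) h.eq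
  refine op_ext fun ζ ζ' => ?_
  rw [mul_apply_eq_comp, mul_apply_eq_comp, inner_slice, inner_slice, slice, slice]
  simp only [comp_apply, I_adjoint]
  rw [a1, F2_I, ← a2, a3, a2, F1_I, ← a1, F, F, ← inner_cut_left, ← inner_cut_left, ← F, ← F,
    F1_I, F2_I, a4]

theorem Good.commute (h : Good T) (h' : Good T') (hc : Commute T (fl Λ * T' * fl Λ)) (b c : Λ) :
    Commute (slice b 1 T) (slice c 1 T') := by
  rw [← h.slice_eq b c, ← h'.slice_eq c b, ← slice_fl b c T']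
  refine slice_commute b c (h.cF c) ?_ hc
  have e : F 1 b * fl Λ = fl Λ * F 2 b := (fl_F b).symm
  have e' : fl Λ * F 1 b = F 2 b * fl Λ := by
    simpa only [star_mul, star_fl, F, star_cut] using congrArg star e
  rw [Commute, SemiconjBy, ← mul_assoc, ← mul_assoc, e, mul_assoc (fl Λ), (h'.cF b).eq,
    mul_assoc _ (fl Λ), e']
  simp only [mul_assoc]

variable {v : URep Γ (Ell2 Λ)} (hv : IsGen v) (hr : IsReg v (dt 1))

include hv hr in
theorem isReg_jj : IsReg v.jj (dt 1) := by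
  have e : ∀ γ, v.jj γ (dt 1) = v γ⁻¹ (dt 1) := fun γ => by
    rw [URep.jj_apply, ← Rm_star_eq, Rm_hat_LA (star_mem (hv.mem γ)), URep.star_apply]
  refine ⟨by simpa only [e, Function.comp_def] using hr.on.comp _ inv_injective,
    fun w hw => hr.tot w fun γ => ?_⟩
  rw [← hw γ⁻¹, e, inv_inv]

theorem eq_E (hΛ : IsICC Λ) {j₀ : Ell2 (K3 Λ) →L[ℂ] Ell2 (K3 Λ)}
    (hj : (setting hv hr hΛ).IsJ 1 j₀) : j₀ = E 1 := by
  refine eq_of_norm_eq hj.1 (cut_nonneg _) fun η => (hj.2 η).unique ?_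
  have h := (isReg_R hv hr).hasSum_normSq (E 1 η)
  simp only [E, ← inner_cut_left] at h
  rw [← hasSum_subtype_iff_of_support_subset (s := {g | g 1 = 1})] at h
  · refine h.congr_fun fun g => ?_
    rw [Function.comp_apply, ← E, E_R_pos hv g.2]; rfl
  · intro g hg
    by_contra hn
    exact hg (by simp only; rw [← E, E_R_neg hv hr hn]; simp)

theorem end2 (hΛ : IsICC Λ) {j₀ : Ell2 (K3 Λ) →L[ℂ] Ell2 (K3 Λ)}
    {𝒯 : Set (Ell2 (K3 Λ) →L[ℂ] Ell2 (K3 Λ))} (hj : (setting hv hr hΛ).IsJ 1 j₀)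
    (h : (setting hv hr hΛ).End2 (fl Λ) j₀ 𝒯) : Nonempty (Λ ≃* Γ) := by
  obtain rfl := eq_E hv hr hΛ hj
  have hleg : ∀ {i : Fin 3}, i ≠ 1 → ∀ r, ∀ T ∈ 𝒯, Commute (lam _ (leg i r)) T :=
    fun hi r T hT => h.gen T hT _ (fun γ => LA_comm_RA (lam_mem_LA _) (jj_mem_RA (D_mem hv γ)))
      (fun μ => (R_single hv 1 μ).symm ▸ commute_Al hv (commute_lam_leg (leg_ne hi.symm r)) μ)
      (commute_E_lam (leg_ne hi.symm r)).symm
  have hg : ∀ T ∈ 𝒯, Good T := fun T hT =>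
    ⟨fun r => hleg (by decide) r T hT, fun r => hleg (by decide) r T hT, fun c =>
      h.gen T hT _ (commute_π hv fun s => commute_cut (rho_dt _) fun y => by
          simp [← mul_assoc])
        (fun μ => (R_single hv 1 μ).symm ▸ commute_Al hv
          (fun s => commute_cut (lam_dt _) fun y => by simp [leg_apply]) μ)
        (commute_cut_cut _ _)⟩
  obtain ⟨T, hT, hT0⟩ := h.ne
  obtain ⟨y, hy⟩ : ∃ y, ⟪dt y, T (dt y)⟫_ℂ ≠ 0 := by
    by_contra hc
    push Not at hc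
    exact hT0 (eq_zero_of_diag (h.pos T hT) hc)
  obtain ⟨B, hB⟩ := h.tr T hT
  have hd : ∀ b k, ⟪dt k, slice b 1 T (dt k)⟫_ℂ
      = ⟪dt (leg 1 (b * k)), T (dt (leg 1 (b * k)))⟫_ℂ := fun b k => by
    rw [inner_slice, I_dt, (hg T hT).diag]; simp [gr]
  refine iso_of_family isReg_lam (isReg_jj hv hr) (fun γ => jj_mem_RA (hv.mem γ)) hΛ icc_Γ
    (𝒜 := {t | ∃ T ∈ 𝒯, ∃ b, t = slice b 1 T}) ?_ ?_ ?_ ?_ ⟨T, hT, y 1, rfl⟩ (fun h0 => hy ?_)
    (B := B) fun G => ?_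
  · rintro _ ⟨T, hT, b, rfl⟩
    exact slice_nonneg _ _ (h.pos T hT)
  · rintro _ ⟨T, hT, b, rfl⟩ _ ⟨T', hT', c, rfl⟩
    exact (hg T hT).commute (hg T' hT') (h.cross T hT T' hT') b c
  · rintro _ ⟨T, hT, b, rfl⟩ s
    exact ⟨T, hT, b * s, (hg T hT).conj_lam b s⟩
  · rintro _ ⟨T, hT, b, rfl⟩ γ
    refine ⟨_, h.conj T hT γ⁻¹, b, op_ext fun ζ ζ' => ?_⟩
    have e : ∀ ζ, (setting hv hr hΛ).π γ (I b 1 ζ) = I b 1 (v.jj γ ζ) := jj_emb_I b 1 (hv.mem γ)
    rw [mul_apply_eq_comp, mul_apply_eq_comp, ← URep.inner_left, inner_slice, inner_slice,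
      mul_apply_eq_comp, mul_apply_eq_comp, ← URep.inner_left, inv_inv, e, e]
  · have := hd (y 1) 1
    rw [h0, mul_one] at this
    rw [(hg T hT).diag, ← this]; simp
  · set P := push (leg (Λ := Λ) 1) (leg_inj 1)
    have hP : ∀ ζ, ⟪ζ, (adjoint P ∘L T ∘L P) ζ⟫_ℂ = ⟪P ζ, T (P ζ)⟫_ℂ := fun ζ => by
      rw [comp_apply, comp_apply, adjoint_inner_right]
    have := trace_le_of_basis hr.hasSum_normSq
      (orthonormal_dt.comp _ (mul_right_injective (y 1))) (t := adjoint P ∘L T ∘L P)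
      ((nonneg_iff_isPositive _).2 (((nonneg_iff_isPositive _).1 (h.pos T hT)).adjoint_conj P))
      (B := B) (fun G => ?_) G
    · simpa only [hP, Function.comp_apply, P, push_dt, lam_dt, mul_one, hd] using this
    · have e : ∀ μ, (setting hv hr hΛ).R (Pi.mulSingle 1 μ) (dt 1) = P (v μ (dt 1)) := fun μ =>
        (congrArg (fun A : Ell2 (K3 Λ) →L[ℂ] Ell2 (K3 Λ) => A (dt 1)) (R_single hv 1 μ)).trans
          (emb_hat _ _ (hv.mem μ))
      simpa only [hP, e, norm_dt, one_pow, mul_one] using hB (dt 1) G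

end Crest.Agent.N111.A

namespace Crest.Agent.N111

theorem redII : RedIIStmt := by
  rintro Λ _ _ _ hΛ ⟨φ, hφ⟩
  obtain ⟨v, hv, hr⟩ := (Iso.ofIso hφ).exists_gen (Iso.ofIso_p hφ) hΛ
  exact ⟨_, _, _, inferInstance, A.setting hv hr hΛ, A.fl Λ, A.setting_flip hv hr hΛ,
    fun _ _ hj h => A.end2 hv hr hΛ hj h⟩

end Crest.Agent.N111
end
end

-- ▼ part N111/O/Frame
section

/-!
# Row 111, module O: projective frames and wandering cones (helper44).
-/

set_option autoImplicit false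

namespace Crest.Agent.N111

open Topology Filter Matrix

namespace OutAux

/-- the determinant of three vectors -/
def d3 (a b c : V) : ℝ := a ⬝ᵥ (b ⨯₃ c)

/-- Cramer coordinates of the fourth point -/
def cw (a : Fin 4 → V) : Fin 3 → ℝ :=
  ![d3 (a 3) (a 1) (a 2), d3 (a 0) (a 3) (a 2), d3 (a 0) (a 1) (a 3)]

/-- the frame matrix of four points -/
def fr (a : Fin 4 → V) : Matrix (Fin 3) (Fin 3) ℝ := of fun i k => cw a k * a k.castSucc i

theorem d3_eq (a b c : V) : d3 a b c = a 0 * (b 1 * c 2 - b 2 * c 1) + a 1 * (b 2 * c 0 - b 0 * c 2)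
    + a 2 * (b 0 * c 1 - b 1 * c 0) := by
  simp [d3, cross_apply, dotProduct, Fin.sum_univ_three]

theorem d3_smul (r s t : ℝ) (a b c : V) : d3 (r • a) (s • b) (t • c) = r * s * t * d3 a b c := by
  simp only [d3_eq, Pi.smul_apply, smul_eq_mul]; ring

theorem det_fr (a : Fin 4 → V) :
    (fr a).det = cw a 0 * cw a 1 * cw a 2 * d3 (a 0) (a 1) (a 2) := by
  rw [det_fin_three, d3_eq]
  simp only [fr, of_apply, Fin.castSucc_zero, show (1 : Fin 3).castSucc = 1 from rfl,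
    show (2 : Fin 3).castSucc = 2 from rfl]
  ring

theorem fr_ac (g : G) (a : Fin 4 → V) :
    fr (fun i => ac g (a i)) = (g : Matrix (Fin 3) (Fin 3) ℝ) * fr a := by
  have h : cw (fun i => ac g (a i)) = cw a := by simp only [cw, d3, ac_det]
  ext i k
  simp only [fr, h, of_apply, ac_apply, mul_apply, Fin.sum_univ_three]
  ring

theorem fr_smul (c : Fin 4 → ℝ) (a : Fin 4 → V) :
    fr (fun i => c i • a i) = (c 0 * c 1 * c 2 * c 3) • fr a := by
  ext i k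
  fin_cases k <;> simp [fr, cw, d3_smul] <;> ring

theorem continuous_fr : Continuous fr := by
  refine continuous_matrix fun i k => ?_
  fin_cases k <;> simp [fr, cw, d3_eq] <;> fun_prop

/-- the cone over a small ball -/
def cone (z : V) (ε : ℝ) : Set V := {a | ∃ t : ℝ, t ≠ 0 ∧ dist (t • a) z < ε}

theorem isOpen_cone (z : V) (ε : ℝ) : IsOpen (cone z ε) := by
  have : cone z ε = ⋃ t : ℝ, ⋃ _ : t ≠ 0, {a | dist (t • a) z < ε} := by
    ext a; simp [cone]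
  rw [this]
  exact isOpen_iUnion fun t => isOpen_iUnion fun _ => isOpen_lt (by fun_prop) continuous_const

theorem mem_cone (z : V) {ε : ℝ} (hε : 0 < ε) : z ∈ cone z ε := ⟨1, one_ne_zero, by simpa⟩

theorem hom0_cone (z : V) (ε : ℝ) : Hom0 (ic (cone z ε)) := by
  intro s hs a
  have : s • a ∈ cone z ε ↔ a ∈ cone z ε :=
    ⟨fun ⟨t, ht, h⟩ => ⟨t * s, mul_ne_zero ht hs, by rwa [mul_smul]⟩,
      fun ⟨t, ht, h⟩ => ⟨t * s⁻¹, mul_ne_zero ht (inv_ne_zero hs), by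
        rwa [smul_smul, mul_assoc, inv_mul_cancel₀ hs, mul_one]⟩⟩
  by_cases h : a ∈ cone z ε
  · rw [ic_of_mem h, ic_of_mem (this.2 h)]
  · rw [ic_of_notMem h, ic_of_notMem (mt this.1 h)]

theorem near_one {τ D : ℝ} (h : τ ^ 3 * D = 1) (hD : |D - 1| < 1 / 10) : |τ - 1| < 1 / 5 := by
  rw [abs_lt] at hD ⊢
  have hs := (show Odd 3 by decide).strictMono_pow (R := ℝ)
  constructor
  · by_contra hc
    have h1 : τ ^ 3 ≤ (4 / 5) ^ 3 := hs.monotone (by linarith)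
    nlinarith
  · by_contra hc
    have h1 : (6 / 5 : ℝ) ^ 3 ≤ τ ^ 3 := hs.monotone (by linarith)
    nlinarith

theorem eq_one_of_near {μ : Γ} {τ : ℝ} {H : Matrix (Fin 3) (Fin 3) ℝ}
    (hg : (ι μ : Matrix (Fin 3) (Fin 3) ℝ) = τ • H) (h2 : |H.det - 1| < 1 / 10)
    (h3 : ∀ i k, |H i k - (1 : Matrix (Fin 3) (Fin 3) ℝ) i k| < 1 / 10) : μ = 1 := by
  have hτ : |τ - 1| < 1 / 5 := near_one (by
    have := congrArg det hg
    rw [det_smul, (ι μ).det_coe] at this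
    simpa using this.symm) h2
  ext i k
  have e : ((μ i k : ℤ) : ℝ) = τ * H i k := congrFun (congrFun hg i) k
  have e' := h3 i k
  have : |μ i k - (1 : Γ) i k| < 1 := by
    have h1 : (((1 : Γ) i k : ℤ) : ℝ) = (1 : Matrix (Fin 3) (Fin 3) ℝ) i k := by
      simp [one_apply]
    have h01 : (1 : Matrix (Fin 3) (Fin 3) ℝ) i k = 0 ∨ (1 : Matrix (Fin 3) (Fin 3) ℝ) i k = 1 := by
      rw [one_apply]; split_ifs <;> simp
    rw [← @Int.cast_lt ℝ, Int.cast_abs, Int.cast_sub, e, h1, Int.cast_one]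
    rw [abs_lt] at hτ e' ⊢
    rcases h01 with h0 | h0 <;> rw [h0] at e' ⊢ <;> constructor <;> nlinarith
  exact sub_eq_zero.1 (Int.abs_lt_one_iff.1 this)

/-- the projective transformation between two frames -/
noncomputable def Hm (p : (Fin 4 → V) × (Fin 4 → V)) : Matrix (Fin 3) (Fin 3) ℝ :=
  (fr p.1).det⁻¹ • (fr p.2 * (fr p.1).adjugate)

theorem ev_near {z : Fin 4 → V} (hz : (fr z).det ≠ 0) : ∀ᶠ p in 𝓝 (z, z), (fr p.1).det ≠ 0 ∧
    |(Hm p).det - 1| < 1 / 10 ∧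
      ∀ i k, |Hm p i k - (1 : Matrix (Fin 3) (Fin 3) ℝ) i k| < 1 / 10 := by
  have c1 : Continuous fun p : (Fin 4 → V) × (Fin 4 → V) => fr p.1 :=
    continuous_fr.comp continuous_fst
  have c2 : Continuous fun p : (Fin 4 → V) × (Fin 4 → V) => fr p.2 :=
    continuous_fr.comp continuous_snd
  have e1 : Tendsto (fun p : (Fin 4 → V) × (Fin 4 → V) => (fr p.1).det) (𝓝 (z, z))
      (𝓝 (fr z).det) := c1.matrix_det.tendsto (z, z)
  have cH' : Tendsto Hm (𝓝 (z, z)) (𝓝 1) := by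
    have := (e1.inv₀ hz).smul ((c2.matrix_mul c1.matrix_adjugate).tendsto (z, z))
    simp only [mul_adjugate, smul_smul, inv_mul_cancel₀ hz, one_smul] at this
    exact this
  refine (e1.eventually_ne hz).and (Eventually.and ?_ ?_)
  · have := (continuous_id.matrix_det.tendsto (1 : Matrix (Fin 3) (Fin 3) ℝ)).comp cH'
    simpa [Real.dist_eq] using Metric.tendsto_nhds.1 this (1 / 10) (by norm_num)
  · refine eventually_all.2 fun i => eventually_all.2 fun k => ?_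
    have := ((continuous_id.matrix_elem i k).tendsto (1 : Matrix (Fin 3) (Fin 3) ℝ)).comp cH'
    simpa [Real.dist_eq] using Metric.tendsto_nhds.1 this (1 / 10) (by norm_num)

theorem eq_smul_Hm {g : Matrix (Fin 3) (Fin 3) ℝ} {τ : ℝ} {a b : Fin 4 → V} (h1 : (fr a).det ≠ 0)
    (key : g * fr a = τ • fr b) : g = τ • Hm (a, b) := by
  rw [Hm, smul_comm, ← smul_mul_assoc, ← key, Matrix.mul_assoc, mul_adjugate, Matrix.mul_smul,
    Matrix.mul_one, smul_smul, inv_mul_cancel₀ h1, one_smul]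

/-- small cones around four points in general position wander -/
theorem exists_wandering {z : Fin 4 → V} (hz : (fr z).det ≠ 0) : ∃ ε > (0 : ℝ), ∀ μ : Γ,
    (∀ i, ∃ a ∈ cone (z i) ε, ac (ι μ) a ∈ cone (z i) ε) → μ = 1 := by
  obtain ⟨ε, hε, h⟩ := Metric.eventually_nhds_iff.1 (ev_near hz)
  refine ⟨ε, hε, fun μ hμ => ?_⟩
  choose a ha ha' using hμ
  choose t ht hta using ha
  choose t' ht' hta' using ha'
  obtain ⟨h1, h2, h3⟩ := @h (fun i => t i • a i, fun i => t' i • ac (ι μ) (a i)) (by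
    rw [Prod.dist_eq, max_lt_iff, dist_pi_lt_iff hε, dist_pi_lt_iff hε]
    exact ⟨hta, hta'⟩)
  refine eq_one_of_near (eq_smul_Hm
    (τ := t 0 / t' 0 * (t 1 / t' 1) * (t 2 / t' 2) * (t 3 / t' 3)) h1 ?_) h2 h3
  rw [← fr_ac, ← fr_smul (fun i => t i / t' i)]
  congr 1
  funext i
  rw [ac_smul, smul_smul, div_mul_cancel₀ _ (ht' i)]

end OutAux

end Crest.Agent.N111
end

-- ▼ part N111/O/Out
section

/-!
# Row 111, module O: the wandering projections (`OutStmt`) (helper44).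
-/

set_option autoImplicit false
set_option linter.unusedSectionVars false

namespace Crest.Agent.N111

open MeasureTheory Topology Filter Matrix
open scoped InnerProductSpace

namespace OutAux

variable {K : Type} [NormedAddCommGroup K] [InnerProductSpace ℂ K] [CompleteSpace K]

section word
variable {Y : Type} [MeasurableSpace Y] {n : ℕ}

theorem word_succ (P : Fin (n + 1) → POVM Y K) (f : Fin (n + 1) → Y → ℂ) :
    word P f = (P 0).E (f 0) * word (fun i => P i.succ) fun i => f i.succ := by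
  simp only [word, List.ofFn_succ, List.prod_cons]

theorem commute_word {P : Fin n → POVM Y K} {f : Fin n → Y → ℂ} {S : K →L[ℂ] K}
    (h : ∀ i, Commute S ((P i).E (f i))) : Commute S (word P f) :=
  Commute.list_prod_right _ _ fun x hx => by
    obtain ⟨i, rfl⟩ := List.mem_ofFn.1 hx
    exact h i

theorem word_congr {P Q : Fin n → POVM Y K} {f g : Fin n → Y → ℂ}
    (h : ∀ i, (P i).E (f i) = (Q i).E (g i)) : word P f = word Q g := by
  simp only [word, h]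

theorem word_one (P : Fin n → POVM Y K) : word P (fun _ _ => 1) = 1 := by
  simp [word, POVM.E_one]

theorem word_eq_zero {P : Fin n → POVM Y K} {f : Fin n → Y → ℂ} {i : Fin n}
    (h : (P i).E (f i) = 0) : word P f = 0 :=
  List.prod_eq_zero (List.mem_ofFn.2 ⟨i, h⟩)

theorem conj_word (u u' : K →L[ℂ] K) (h : u * u' = 1) (h' : u' * u = 1) {P Q : Fin n → POVM Y K}
    {f g : Fin n → Y → ℂ} (e : ∀ i, u * (P i).E (f i) * u' = (Q i).E (g i)) :
    u * word P f * u' = word Q g := by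
  induction n with
  | zero => simpa [word] using h
  | succ n ih =>
    rw [word_succ, word_succ, ← e 0, ← ih fun i => e i.succ]
    simp only [mul_assoc]
    rw [← mul_assoc u' u, h', one_mul]

/-- commuting projection valued measures -/
def CPVM (P : Fin n → POVM Y K) : Prop :=
  (∀ i, (P i).IsPVM) ∧ ∀ i k f g, BM f → BM g → Commute ((P i).E f) ((P k).E g)

theorem CPVM.tail {P : Fin (n + 1) → POVM Y K} (h : CPVM P) : CPVM fun i => P i.succ :=
  ⟨fun _ => h.1 _, fun _ _ => h.2 _ _⟩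

theorem CPVM.word_mul {P : Fin n → POVM Y K} (h : CPVM P) {f g : Fin n → Y → ℂ}
    (hf : ∀ i, BM (f i)) (hg : ∀ i, BM (g i)) :
    word P (fun i y => f i y * g i y) = word P f * word P g := by
  induction n with
  | zero => simp [word]
  | succ n ih =>
    rw [word_succ, word_succ, word_succ, h.1 0 _ _ (hf 0) (hg 0),
      ih h.tail (fun i => hf _) fun i => hg _]
    simp only [mul_assoc]
    congr 1
    rw [← mul_assoc, ← mul_assoc,
      (commute_word (P := fun i => P i.succ) fun i => h.2 0 _ _ _ (hg 0) (hf _)).eq]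

theorem CPVM.star_word {P : Fin n → POVM Y K} (h : CPVM P) {f : Fin n → Y → ℂ}
    (hf : ∀ i, BM (f i)) : star (word P f) = word P fun i y => (starRingEnd ℂ) (f i y) := by
  induction n with
  | zero => simp [word]
  | succ n ih =>
    rw [word_succ, word_succ, star_mul, ih h.tail fun i => hf _, POVM.E_star _ (hf 0)]
    exact (commute_word (P := fun i => P i.succ) fun i =>
      h.2 0 _ _ _ (hf 0).conj (hf _).conj).eq.symm

end word

section ind
variable (I : Ind K)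

theorem commute_limSet {S : K →L[ℂ] K}
    (h : ∀ g, Commute (I.U g * S * I.U g⁻¹) I.j ∧ ∀ μ, Commute (I.U g * S * I.U g⁻¹) (I.ρ μ)) :
    ∀ T ∈ I.LimSet, Commute S T := by
  rintro T ⟨l, F, hl, -, hF, hT⟩
  refine (hT.mul_left S).unique ?_
  convert hT.mul_right S using 2 with k
  have e := (I.commute_m (h (al k)).2 (h (al k)).1 (bm_Γ (hF k))).eq
  have e' := congrArg (fun X => I.U (al k)⁻¹ * X * I.U (al k)) e
  simp only [Ind.σ, mul_assoc, URep.inv_mul_self, mul_one] at e' ⊢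
  rw [← mul_assoc (I.U (al k)⁻¹) (I.U (al k)), URep.inv_mul_self, one_mul] at e'
  exact e'

variable {I}

theorem commute_pro {Φ : V → POVM V K} (hΦ : I.IsPro Φ) {S : K →L[ℂ] K}
    (h : ∀ g, Commute (I.U g * S * I.U g⁻¹) I.j ∧ ∀ μ, Commute (I.U g * S * I.U g⁻¹) (I.ρ μ))
    {x : V} (hx : x ≠ 0) {f : V → ℂ} (hf : BM f) : Commute S ((Φ x).E f) := by
  obtain ⟨g, rfl⟩ := exists_ac_ev hx 0
  have h1 := hΦ.gen (I.U g⁻¹ * S * I.U g) (commute_limSet I fun g' => by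
    have := h (g' * g⁻¹)
    simpa only [map_mul, _root_.mul_inv_rev, inv_inv, mul_assoc] using this) f hf
  have e' := congrArg (fun X => I.U g * X * I.U g⁻¹) h1.eq
  rw [← hΦ.covU _ (ev_ne_zero 0) f hf g]
  simp only [mul_assoc, URep.mul_inv_self, mul_one] at e'
  rw [← mul_assoc (I.U g) (I.U g⁻¹), URep.mul_inv_self, one_mul] at e'
  change _ = _
  simpa only [mul_assoc] using e'

end ind

theorem x4_ne_zero (i : Fin 4) : x4 i ≠ 0 := by
  intro h
  fin_cases i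
  · exact ev_ne_zero 0 h
  · exact ev_ne_zero 1 h
  · exact ev_ne_zero 2 h
  · simpa [x4, ev] using congrFun h 0

section supp
variable {I : Ind K} {L : ℕ → ℝ} {Φ A : V → POVM V K} {sc : ℝ → ℝ}

theorem exists_supp (hA : I.IsLift L Φ A sc) (x : Fin 4 → V) :
    ∃ z ∈ supp (word fun i => A (x i)), ∀ i, z i ≠ 0 := by
  by_contra hc
  push Not at hc
  have h := (isPoly_word fun i => A (x i)).eq_zero_of_conc (Z := fun _ => {0}ᶜ)
    (fun _ => isOpen_compl_singleton) (fun f hf => word_congr fun i =>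
      (A (x i)).E_congr_of_null (measurableSet_singleton 0) (hA.zero _) (hf i)
        ((BM.ic (measurableSet_singleton 0).compl).mul (hf i)) fun y hy => by
          rw [ic_of_mem hy, one_mul])
    (fun z hz hs => by obtain ⟨i, hi⟩ := hc z hs; exact hz i hi) (fun _ _ => 1) fun _ => BM.one
  rw [word_one] at h
  exact I.ξ_ne (by simpa using congrArg (fun T : K →L[ℂ] K => T I.ξ) h)

/-- three of the four points of a support point, moved to the standard triple -/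
theorem triple_mem (hA : I.IsLift L Φ A sc) {x z : Fin 4 → V}
    (hz : z ∈ supp (word fun i => A (x i))) (e : Fin 3 → Fin 4) (he : Function.Injective e)
    (l : Fin 4)
    (hw : ∀ f : Fin 4 → V → ℂ, (∀ i, BM (f i)) → word (fun i => A (x i)) f =
      (A (x (e 0))).E (f (e 0)) * (A (x (e 1))).E (f (e 1)) * (A (x (e 2))).E (f (e 2)) *
        (A (x l)).E (f l))
    (hd : d3 (x (e 0)) (x (e 1)) (x (e 2)) = 1) :
    (fun i => z (e i)) ∈ supp (word ![A (ev 0), A (ev 1), A (ev 2)]) := by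
  obtain ⟨g, h0, h1, h2⟩ := exists_ac_triple hd
  intro O hO hnull
  refine hz (Function.extend e O fun _ => Set.univ) (fun k => ?_) fun f hf hsupp => ?_
  · by_cases hk : ∃ i, e i = k
    · obtain ⟨i, rfl⟩ := hk
      rw [he.extend_apply]
      exact hO i
    · rw [Function.extend_apply' _ _ _ hk]
      exact univ_mem
  · have := hnull (fun i => f (e i)) (fun i => hf _) fun i y hy =>
      hsupp _ y (by rwa [he.extend_apply])
    rw [word_three] at this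
    rw [hw f hf, ← h0, ← h1, ← h2, ← hA.covU _ (ev_ne_zero 0) _ (hf _) g,
      ← hA.covU _ (ev_ne_zero 1) _ (hf _) g, ← hA.covU _ (ev_ne_zero 2) _ (hf _) g]
    have e' := congrArg (fun X => I.U g * X * I.U g⁻¹ * (A (x l)).E (f l)) this
    simp only [mul_zero, zero_mul] at e'
    rw [← e']
    simp only [mul_assoc, ← mul_assoc (I.U g⁻¹) (I.U g), URep.inv_mul_self, one_mul]

theorem exists_frame {B : V → POVM V K} {sc' : ℝ → ℝ} (hA : I.IsLift L Φ A sc)
    (hc : Com L A B sc sc') : ∃ z ∈ supp (word fun i => A (x4 i)), (fr z).det ≠ 0 := by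
  obtain ⟨z, hz, hz0⟩ := exists_supp hA x4
  obtain ⟨D, hD, hdet⟩ := hc.det
  have w4 : ∀ f : Fin 4 → V → ℂ, word (fun i => A (x4 i)) f = (A (x4 0)).E (f 0) *
      (A (x4 1)).E (f 1) * (A (x4 2)).E (f 2) * (A (x4 3)).E (f 3) := fun f => by
    simp [word, List.ofFn_succ, mul_assoc]
  have cm : ∀ f : Fin 4 → V → ℂ, (∀ i, BM (f i)) → ∀ i k,
      (A (x4 i)).E (f i) * (A (x4 k)).E (f k) = (A (x4 k)).E (f k) * (A (x4 i)).E (f i) :=
    fun f hf i k => (hc.AA _ _ (x4_ne_zero i) (x4_ne_zero k) _ _ (hf i) (hf k)).eq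
  have cm' : ∀ f : Fin 4 → V → ℂ, (∀ i, BM (f i)) → ∀ i k T,
      (A (x4 i)).E (f i) * ((A (x4 k)).E (f k) * T) =
        (A (x4 k)).E (f k) * ((A (x4 i)).E (f i) * T) :=
    fun f hf i k T => by rw [← mul_assoc, cm f hf, mul_assoc]
  have key : ∀ (e : Fin 3 → Fin 4) (l : Fin 4), Function.Injective e →
      (∀ f : Fin 4 → V → ℂ, (∀ i, BM (f i)) → word (fun i => A (x4 i)) f =
        (A (x4 (e 0))).E (f (e 0)) * (A (x4 (e 1))).E (f (e 1)) * (A (x4 (e 2))).E (f (e 2)) *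
          (A (x4 l)).E (f l)) → d3 (x4 (e 0)) (x4 (e 1)) (x4 (e 2)) = 1 →
      d3 (z (e 0)) (z (e 1)) (z (e 2)) ≠ 0 := fun e l he hw hd h0 => by
    have := hdet _ (triple_mem hA hz e he l hw hd) fun i => hz0 _
    rw [show z (e 0) ⬝ᵥ z (e 1) ⨯₃ z (e 2) = 0 from h0, abs_zero] at this
    exact hD.ne this
  have k3 := key ![0, 1, 2] 3 (by decide) (fun f _ => w4 f) (by simp [d3_eq, x4, ev])
  have k0 := key ![3, 1, 2] 0 (by decide) (fun f hf => by
    simp only [w4, mul_assoc, cons_val_zero, cons_val_one, cons_val]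
    rw [cm f hf 2 3, cm' f hf 1 3, cm' f hf 0 3, cm' f hf 0 1, cm f hf 0 2])
    (by simp [d3_eq, x4, ev])
  have k1 := key ![0, 3, 2] 1 (by decide) (fun f hf => by
    simp only [w4, mul_assoc, cons_val_zero, cons_val_one, cons_val]
    rw [cm f hf 2 3, cm' f hf 1 3, cm f hf 1 2]) (by simp [d3_eq, x4, ev])
  have k2 := key ![0, 1, 3] 2 (by decide) (fun f hf => by
    simp only [w4, mul_assoc, cons_val_zero, cons_val_one, cons_val]
    rw [cm f hf 2 3]) (by simp [d3_eq, x4, ev])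
  refine ⟨z, hz, ?_⟩
  rw [det_fr]
  exact mul_ne_zero (mul_ne_zero (mul_ne_zero k0 k1) k2) k3

end supp

end OutAux

open OutAux

theorem out : OutStmt := by
  intro K _ _ _ I I' L Φ Ψ A B sc sc' hg hc
  have hΦ := hg.pro
  have hA := hg.lift
  obtain ⟨z, hz, hdet⟩ := exists_frame hA hc
  obtain ⟨ε, hε, hw⟩ := exists_wandering hdet
  have hO : ∀ i, MeasurableSet (cone (z i) ε) := fun i => (isOpen_cone _ _).measurableSet
  have hb : ∀ i, BM (ic (cone (z i) ε)) := fun i => BM.ic (hO i)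
  have hx : ∀ g i, ac g (x4 i) ≠ 0 := fun g i => ac_ne_zero g (x4_ne_zero i)
  have cp : ∀ g, CPVM fun i => Φ (ac g (x4 i)) := fun g => ⟨fun i => hΦ.pvm _,
    fun i k f f' hf hf' => by
      rw [hA.proj _ (hx g i) f hf, hA.proj _ (hx g k) f' hf']
      exact hc.AA _ _ (hx g i) (hx g k) _ _ (hf.comp measurable_nrm) (hf'.comp measurable_nrm)⟩
  refine ⟨fun i => cone (z i) ε, hO, fun g => ?_, fun g => ?_, fun h g => ?_, fun g μ hμ => ?_,
    fun h0 => ?_, fun g a ha => ?_, fun S hU hρ hj g => ?_⟩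
  · rw [P4, (cp g).star_word hb]
    simp only [conj_ic]
  · rw [P4, ← (cp g).word_mul hb hb]
    congr 1
    funext i
    rw [← ic_inter, Set.inter_self]
  · exact conj_word _ _ (I.U.mul_inv_self h) (I.U.inv_mul_self h) fun i => by
      rw [hΦ.covU _ (hx g i) _ (hb i), ac_mul]
  · have e := conj_word _ _ (I.ρ.mul_inv_self μ) (I.ρ.inv_mul_self μ)
      (P := fun i => Φ (ac g (x4 i))) (Q := fun i => Φ (ac g (x4 i)))
      fun i => hΦ.covρ _ (hx g i) _ (hb i) (hom0_cone _ _) μ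
    obtain ⟨i, hi⟩ : ∃ i, ∀ a ∈ cone (z i) ε, ac (ι μ⁻¹) a ∉ cone (z i) ε := by
      by_contra hcon
      push Not at hcon
      exact hμ (inv_eq_one.1 (hw _ hcon))
    have e0 : P4 Φ (fun i => cone (z i) ε) g *
        (I.ρ μ * P4 Φ (fun i => cone (z i) ε) g * I.ρ μ⁻¹) = 0 := by
      rw [P4, e, ← (cp g).word_mul hb fun i => (hb i).comp (measurable_ac _)]
      refine word_eq_zero (i := i) (Eq.trans ?_ (Φ (ac g (x4 i))).E_zero)
      congr 1
      funext a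
      by_cases ha : a ∈ cone (z i) ε
      · rw [ic_of_notMem (hi a ha), mul_zero]
      · rw [ic_of_notMem ha, zero_mul]
    simpa only [mul_assoc, URep.inv_mul_self, mul_one, zero_mul] using
      congrArg (fun X => X * I.ρ μ) e0
  · refine hz (fun i => cone (z i) ε) (fun i => (isOpen_cone _ _).mem_nhds (mem_cone _ hε))
      fun f hf hs => ?_
    have cA : CPVM fun i => A (x4 i) :=
      ⟨fun i => hA.pvm _, fun i k => hc.AA _ _ (x4_ne_zero i) (x4_ne_zero k)⟩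
    have e1 : word (fun i => A (x4 i)) (fun i => ic (cone (z i) ε)) = 0 := by
      rw [← h0, P4]
      refine word_congr fun i => ?_
      rw [ac_one, hA.proj _ (x4_ne_zero i) _ (hb i)]
      simp only [(hom0_cone _ _).nrm]
    have e2 : f = fun i y => ic (cone (z i) ε) y * f i y := by
      funext i y
      by_cases hy : y ∈ cone (z i) ε
      · rw [ic_of_mem hy, one_mul]
      · rw [hs i y hy, mul_zero]
    rw [e2, cA.word_mul hb hf, e1, zero_mul]
  · exact (commute_word fun i => commute_pro hΦ (fun g' => ⟨I.Cj _ (I.conj_C a ha g'),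
      I.Cρ _ (I.conj_C a ha g')⟩) (hx g i) (hb i)).eq
  · refine commute_word fun i => commute_pro hΦ (fun g' => ?_) (hx g i) (hb i)
    rw [← (hU g').eq, mul_assoc, URep.mul_inv_self, mul_one]
    exact ⟨hj, hρ⟩

end Crest.Agent.N111
end

-- ▼ part N111/X/Basic
section

/-!
# Row 111, module X (`CrossStmt`): joint PVMs, membership in `N`, two legs.
-/

set_option autoImplicit false
set_option linter.unusedSectionVars false
set_option linter.unusedVariables false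

namespace Crest.Agent.N111.Cr

open MeasureTheory Topology Filter Matrix
open scoped InnerProductSpace

variable {K : Type} [NormedAddCommGroup K] [InnerProductSpace ℂ K] [CompleteSpace K]

/-! ### joint PVMs -/

section joint

variable {Y Ω : Type} [MeasurableSpace Y] [MeasurableSpace Ω]

theorem list_prod_update {M : Type*} [Monoid M] {n : ℕ} (i : Fin n) (a : M) :
    (List.ofFn (Function.update (fun _ : Fin n => (1 : M)) i a)).prod = a := by
  induction n with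
  | zero => exact i.elim0
  | succ n ih =>
    rw [List.ofFn_succ, List.prod_cons]
    refine Fin.cases ?_ (fun i => ?_) i
    · simp
    · rw [Function.update_of_ne (Fin.succ_ne_zero i).symm, one_mul]
      convert ih i using 4 with k
      simp only [Function.update_apply, Fin.succ_inj]

/-- the joint PVM of a commuting family, through its marginals -/
theorem exists_joint [StandardBorelSpace Y] {n : ℕ} {P : Fin n → POVM Y K}
    (hP : ∀ i, (P i).IsPVM) (h : ∀ i k f g, BM f → BM g → Commute ((P i).E f) ((P k).E g)) :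
    ∃ J : POVM (Fin n → Y) K, J.IsPVM ∧ ∀ i f, BM f → J.E (fun z => f (z i)) = (P i).E f := by
  obtain ⟨J, hJ, h⟩ := POVM.exists_joint_fin hP h
  refine ⟨J, hJ, fun i f hf => ?_⟩
  have := h (Function.update (fun _ _ => 1) i f) (BM.update (fun _ => BM.one) i hf)
  rw [word] at this
  convert this using 2
  · funext z
    rw [Finset.prod_eq_single i (fun k _ hk => by simp [hk]) (by simp)]; simp
  · rw [← list_prod_update i ((P i).E f)]
    congr 2
    funext k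
    rcases eq_or_ne k i with rfl | hk
    · simp
    · simp [hk, (P k).E_one]

/-- the complement of the support of a word is negligible -/
theorem ae_mem_supp [TopologicalSpace Y] [SecondCountableTopology Y] [OpensMeasurableSpace Y]
    {J : POVM Ω K} (hJ : J.IsPVM) {n : ℕ} {P : Fin n → POVM Y K} {φ : Fin n → Ω → Y}
    (hφ : ∀ i, Measurable (φ i)) (hm : ∀ i f, BM f → J.E (fun ω => f (φ i ω)) = (P i).E f)
    (η : K) : ∀ᵐ ω ∂J.ν η, (fun i => φ i ω) ∈ supp (word P) := by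
  have hΦ : Measurable fun ω i => φ i ω := measurable_pi_lambda _ hφ
  refine ae_of_ae_map hΦ.aemeasurable (p := fun z => z ∈ supp (word P)) ?_
  refine measure_null_of_locally_null _ fun z hz => ?_
  simp only [supp, Set.mem_compl_iff, Set.mem_setOf_eq, not_forall, not_not] at hz
  obtain ⟨O, hO, h0⟩ := hz
  have ho : IsOpen (Set.univ.pi fun i => interior (O i)) :=
    isOpen_set_pi Set.finite_univ fun _ _ => isOpen_interior
  refine ⟨_, mem_nhdsWithin_of_mem_nhds (ho.mem_nhds fun i _ => mem_interior_iff_mem_nhds.2 (hO i)),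
    ?_⟩
  rw [Measure.map_apply hΦ ho.measurableSet]
  refine J.ν_eq_zero (hΦ ho.measurableSet) ?_
  have e : ic ((fun ω i => φ i ω) ⁻¹' Set.univ.pi fun i => interior (O i))
      = fun ω => ∏ i, ic (interior (O i)) (φ i ω) := by
    funext ω
    by_cases h : ∀ i, φ i ω ∈ interior (O i)
    · rw [ic_of_mem (by simpa using h), Finset.prod_eq_one fun i _ => ic_of_mem (h i)]
    · rw [ic_of_notMem (by simpa using h)]
      obtain ⟨i, hi⟩ := not_forall.1 h
      exact (Finset.prod_eq_zero (Finset.mem_univ i) (ic_of_notMem hi)).symm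
  have b : ∀ i, BM (ic (interior (O i))) := fun i => BM.ic isOpen_interior.measurableSet
  rw [e, hJ.E_prod _ fun i => (b i).comp (hφ i)]
  simp only [fun i => hm i _ (b i)]
  rw [show (List.ofFn _).prod = _ from h0 _ b fun i y hy =>
    ic_of_notMem fun h => hy (interior_subset h)]
  rfl

theorem ae_ne_zero {J : POVM Ω K} {P : POVM V K} {φ : Ω → V} (hφ : Measurable φ)
    (hm : ∀ f, BM f → J.E (fun ω => f (φ ω)) = P.E f) (h0 : P.E (ic {0}) = 0) (η : K) :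
    ∀ᵐ ω ∂J.ν η, φ ω ≠ 0 := by
  have := J.ν_eq_zero (hφ (measurableSet_singleton 0)) (η := η) (by
    rw [show ic (φ ⁻¹' {0}) = fun ω => ic {0} (φ ω) from funext (ic_preimage _ _),
      hm _ (BM.ic (measurableSet_singleton 0)), h0]; rfl)
  exact measure_eq_zero_iff_ae_notMem.1 this

/-- an operator commuting with two marginals commutes with their joint functions -/
theorem commute_two {Y' : Type} [MeasurableSpace Y'] {J : POVM Ω K} (hJ : J.IsPVM) {φ : Ω → Y}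
    {ψ : Ω → Y'} (hφ : Measurable φ) (hψ : Measurable ψ) {S : K →L[ℂ] K}
    (h1 : ∀ f, BM f → Commute S (J.E fun ω => f (φ ω)))
    (h2 : ∀ f, BM f → Commute S (J.E fun ω => f (ψ ω))) {F : Y × Y' → ℂ} (hF : BM F) :
    Commute S (J.E fun ω => F (φ ω, ψ ω)) := by
  have := ((J.map _ (hφ.prodMk hψ)).isPoly1.mul S 1).ext_prod
    ((J.map _ (hφ.prodMk hψ)).isPoly1.mul 1 S) (fun f g hf hg => by
      simp only [POVM.map_E, mul_one, one_mul]
      rw [hJ _ _ (hf.comp hφ) (hg.comp hψ)]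
      exact ((h1 f hf).mul_right (h2 g hg)).eq) F hF
  simpa only [POVM.map_E, mul_one, one_mul] using! this

end joint

/-! ### membership in `N` -/

variable {I I₃ I₃' : Ind K} {s : K →L[ℂ] K} {L : ℕ → ℝ} {Φ A : V → POVM V K} {sc : ℝ → ℝ}

theorem mem_N_of {P : V → POVM V K}
    (gen : ∀ S : K →L[ℂ] K, (∀ T ∈ I.LimSet, Commute S T) → ∀ f, BM f → Commute S ((P (ev 0)).E f))
    (cov : ∀ x, x ≠ 0 → ∀ f, BM f → ∀ g, I.U g * (P x).E f * I.U g⁻¹ = (P (ac g x)).E f)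
    {x : V} (hx : x ≠ 0) {f : V → ℂ} (hf : BM f) : (P x).E f ∈ I.N := by
  obtain ⟨g, rfl⟩ := exists_ac_ev hx 0
  rw [← cov _ (ev_ne_zero 0) f hf g]
  exact Ind.conj_N (I.mem_N.2 fun a ha =>
    gen a (fun T hT => I.mem_N.1 (Ind.limSet_N hT) a ha) f hf) g

theorem pro_N (h : I.IsPro Φ) {x : V} (hx : x ≠ 0) {f : V → ℂ} (hf : BM f) : (Φ x).E f ∈ I.N :=
  mem_N_of h.gen h.covU hx hf

theorem lift_N (h : I.IsLift L Φ A sc) {x : V} (hx : x ≠ 0) {f : V → ℂ} (hf : BM f) :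
    (A x).E f ∈ I.N := mem_N_of h.gen h.covU hx hf

theorem sc_one (h : I.IsLift L Φ A sc) : sc 1 = 1 := by
  have h1 := h.sc_mul 1 1 one_ne_zero one_ne_zero
  have h2 := h.sc_pos 1 one_ne_zero
  rw [mul_one] at h1
  exact (mul_left_cancel₀ h2.ne' (by rw [← h1, mul_one])).symm

/-- `sc (e^{-k}) ≤ e^{C - L k}` -/
theorem sc_exp_neg (h : I.IsLift L Φ A sc) (hc : LC L sc) :
    ∃ C, ∀ᶠ k : ℕ in atTop, sc (Real.exp (-k)) ≤ Real.exp (C - L k) := by
  obtain ⟨C, hC⟩ := hc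
  refine ⟨C / 2, hC.mono fun k hk => ?_⟩
  have p := fun t : ℝ => h.sc_pos _ (Real.exp_ne_zero t)
  have e : sc (Real.exp (2 * k)) * (sc (Real.exp (-k)) * sc (Real.exp (-k))) = 1 := by
    rw [← h.sc_mul _ _ (Real.exp_ne_zero _) (Real.exp_ne_zero _),
      ← h.sc_mul _ _ (Real.exp_ne_zero _) (by positivity), ← Real.exp_add, ← Real.exp_add,
      show 2 * (k : ℝ) + (-k + -k) = 0 by ring, Real.exp_zero, sc_one h]
  have e2 := congrArg Real.log e
  rw [Real.log_mul (p _).ne' (mul_pos (p _) (p _)).ne', Real.log_mul (p _).ne' (p _).ne',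
    Real.log_one] at e2
  rw [← Real.log_le_iff_le_exp (p _)]
  linarith [(abs_le.1 hk).1]

/-! ### two legs -/

section two

variable (h2 : I.Two s) (hc : I.IsConj I₃ s)
include h2 hc

theorem U_eq (g : G) : I₃.U g = I.U g := by
  rw [hc.U, MonoidHom.id_apply, (h2.s_U g).eq, mul_assoc, h2.s_s, mul_one]

theorem ρ3_eq (μ : Γ) : I₃.ρ μ = s * I.ρ μ * s := hc.ρ μ

theorem ρ3_C (μ : Γ) : I₃.ρ μ ∈ I.C := by rw [ρ3_eq h2 hc]; exact h2.ρ_C μ

theorem sss (T : K →L[ℂ] K) : s * (s * T * s) * s = T := by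
  rw [← mul_assoc, ← mul_assoc, h2.s_s, one_mul, mul_assoc, h2.s_s, mul_one]

theorem ρ_C3 (μ : Γ) : I.ρ μ ∈ I₃.C := by
  rw [hc.C]; exact ⟨_, h2.ρ_C μ, sss h2 hc _⟩

theorem C_decomp {a : K →L[ℂ] K} (ha : a ∈ I.C) : ∃ c ∈ I₃.C, ∃ μ, a = c * I₃.ρ μ := by
  obtain ⟨a', ha', μ, e⟩ := h2.Cρ a ha 1
  refine ⟨s * a' * s, by rw [hc.C]; exact ⟨a', ha', rfl⟩, μ, ?_⟩
  rw [map_one, mul_one] at e
  rw [← sss h2 hc a, e, ρ3_eq h2 hc]
  simp only [mul_assoc]
  rw [← mul_assoc s s, h2.s_s, one_mul]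

theorem Q3_Q {T : K →L[ℂ] K} (hT : T ∈ I₃.Q) : T ∈ I.Q := by
  refine ⟨I.mem_N.2 fun a ha => ?_, fun μ => (I₃.mem_N.1 hT.1 _ (ρ_C3 h2 hc μ)).symm⟩
  obtain ⟨c, hc', μ, rfl⟩ := C_decomp h2 hc ha
  exact (I₃.mem_N.1 hT.1 c hc').mul_left (hT.2 μ).symm

theorem jj3 : I₃.j * I₃.j = I₃.j := by
  rw [hc.j]
  simp only [mul_assoc]
  rw [← mul_assoc s s, h2.s_s, one_mul, ← mul_assoc I.j, h2.jj]

theorem jρj3 {μ : Γ} (hμ : μ ≠ 1) : I₃.j * I₃.ρ μ * I₃.j = 0 := by
  rw [hc.j, ρ3_eq h2 hc]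
  simp only [mul_assoc]
  rw [← mul_assoc s s, h2.s_s, one_mul, ← mul_assoc s s, h2.s_s, one_mul, ← mul_assoc I.j,
    ← mul_assoc (I.j * _), h2.jρj μ hμ, zero_mul, mul_zero]

theorem commute_m_m {F F' : Γ → ℂ} (hF : BM F) (hF' : BM F') : Commute (I.m F) (I₃.m F') := by
  refine I₃.commute_m (fun μ => (I.mem_N.1 (I.m_N hF) _ (ρ3_C h2 hc μ)).symm) ?_ hF'
  refine (I.commute_m (fun μ => (I₃.Cj _ (ρ_C3 h2 hc μ)).symm) ?_ hF).symm
  rw [hc.j]; exact h2.j_j.symm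

/-- on the third leg a bounded row operator factors through `J` -/
theorem J_xq {Y : K →L[ℂ] K} {C : ℝ} (h : I₃.RB Y C) (η : K) : I₃.J (I₃.xq Y η) = I₃.rw Y η := by
  ext μ
  refine ext_inner_left ℂ fun v => ?_
  have sa : ∀ a b, ⟪a, I₃.j b⟫_ℂ = ⟪I₃.j a, b⟫_ℂ := fun a b => by
    rw [← ContinuousLinearMap.adjoint_inner_left, ← ContinuousLinearMap.star_eq_adjoint, I₃.j_sa]
  have e : ⟪I₃.J (I₃.ρ μ (I₃.j v)), I₃.rw Y η⟫_ℂ = ⟪v, I₃.rw Y η μ⟫_ℂ := by
    refine (LG.hasSum_inner _ _).unique ?_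
    convert hasSum_single (f := fun ν => ⟪I₃.J (I₃.ρ μ (I₃.j v)) ν, I₃.rw Y η ν⟫_ℂ) μ
      fun ν hν => ?_ using 1
    · have jj : ∀ w, I₃.j (I₃.j w) = I₃.j w := fun w => congrArg (· w) (jj3 h2 hc)
      rw [I₃.J_apply, URep.inv_apply_apply, h.apply, ← sa, ← sa, jj, jj]
    · have := congrArg (· v) (jρj3 h2 hc (μ := ν⁻¹ * μ) fun e => hν (inv_mul_eq_one.1 e))
      simp only [map_mul, ContinuousLinearMap.mul_apply, ContinuousLinearMap.zero_apply] at this
      simp only [I₃.J_apply, this, inner_zero_left]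
  rw [I₃.J_apply, sa, URep.inner_right, inv_inv, ← e,
    ← ContinuousLinearMap.adjoint_inner_right I₃.J]
  rfl

end two

/-- three vectors of fixed volume: boundedly many lattice points move them into a ball -/
theorem mul_inv_mem_box3 {g g' : G} {a b c : V} {R D : ℝ} (hD : 0 < D) (h : |a ⬝ᵥ (b ⨯₃ c)| = D)
    (ha : ‖ac g a‖ ≤ R) (hb : ‖ac g b‖ ≤ R) (hc : ‖ac g c‖ ≤ R) (ha' : ‖ac g' a‖ ≤ R)
    (hb' : ‖ac g' b‖ ≤ R) (hc' : ‖ac g' c‖ ≤ R) : g' * g⁻¹ ∈ box (6 * R ^ 3 / D) := fun k l => by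
  have hR : 0 ≤ R := (norm_nonneg _).trans ha
  have id : ∀ u v w : V, (u ⬝ᵥ (v ⨯₃ w)) • ev l
      = (v ⨯₃ w) l • u + (w ⨯₃ u) l • v + (u ⨯₃ v) l • w := fun u v w => by
    funext i
    fin_cases i <;> fin_cases l <;>
      simp [ev, cross_apply, dotProduct, Fin.sum_univ_three] <;> ring
  have e := congrArg (fun x => ac (g' * g⁻¹) x k) (id (ac g a) (ac g b) (ac g c))
  simp only [ac_add, ac_smul, ac_det, ← ac_mul, inv_mul_cancel_right, Pi.add_apply, Pi.smul_apply,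
    smul_eq_mul, ac_ev] at e
  have t : ∀ u v w : V, ‖u‖ ≤ R → ‖v‖ ≤ R → ‖w‖ ≤ R → |(u ⨯₃ v) l * w k| ≤ 2 * R ^ 3 :=
    fun u v w hu hv hw => by
    rw [abs_mul]
    calc _ ≤ (2 * ‖u‖ * ‖v‖) * ‖w‖ := mul_le_mul
          ((norm_le_pi_norm (u ⨯₃ v) l).trans (norm_cross_le u v)) (norm_le_pi_norm w k)
          (abs_nonneg _) (by positivity)
      _ ≤ (2 * R * R) * R := by gcongr
      _ = _ := by ring
  rw [le_div_iff₀ hD, ← h, ← abs_mul, mul_comm, e]
  linarith [abs_add_three ((ac g b ⨯₃ ac g c) l * ac g' a k) ((ac g c ⨯₃ ac g a) l * ac g' b k)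
    ((ac g a ⨯₃ ac g b) l * ac g' c k), t _ _ _ hb hc ha', t _ _ _ hc ha hb', t _ _ _ ha hb hc']

end Crest.Agent.N111.Cr
end

-- ▼ part N111/X/Joint
section

/-!
# Row 111, module X: the hypotheses, covariance, and the joint PVM of the third leg.
-/

set_option autoImplicit false
set_option linter.unusedSectionVars false
set_option linter.unusedVariables false

namespace Crest.Agent.N111.Cr

open MeasureTheory Topology Filter Matrix
open scoped InnerProductSpace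

variable {K : Type} [NormedAddCommGroup K] [InnerProductSpace ℂ K] [CompleteSpace K]

/-- the hypotheses of `CrossStmt` -/
structure XH (I I₃ I₃' : Ind K) (s : K →L[ℂ] K) (L : ℕ → ℝ) (Φ Φ₃ Ψ₃ A B : V → POVM V K)
    (sc sc' : ℝ → ℝ) : Prop where
  two : I.Two s
  conj : I.IsConj I₃ s
  tight : I.Tight L
  pro : I.IsPro Φ
  geo : Geo I₃ I₃' L Φ₃ Ψ₃ A B sc sc'
  com : Com L A B sc sc'

theorem conj_mul_conj {Λ : Type*} [Group Λ] (ρ : URep Λ K) (g : Λ) (a b : K →L[ℂ] K) :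
    ρ g * a * ρ g⁻¹ * (ρ g * b * ρ g⁻¹) = ρ g * (a * b) * ρ g⁻¹ := by
  simp only [mul_assoc]
  rw [← mul_assoc (ρ g⁻¹), URep.inv_mul_self, one_mul]

theorem commute_conj {Λ : Type*} [Group Λ] (ρ : URep Λ K) (g : Λ) {a b : K →L[ℂ] K}
    (h : Commute a b) : Commute (ρ g * a * ρ g⁻¹) (ρ g * b * ρ g⁻¹) := by
  rw [Commute, SemiconjBy, conj_mul_conj, conj_mul_conj, h.eq]

theorem conj_eq_zero {Λ : Type*} [Group Λ] (ρ : URep Λ K) (g : Λ) {a : K →L[ℂ] K}
    (h : ρ g * a * ρ g⁻¹ = 0) : a = 0 := by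
  have : ρ g⁻¹ * (ρ g * a * ρ g⁻¹) * ρ g = a := by
    simp only [mul_assoc]
    rw [URep.inv_mul_self, mul_one, ← mul_assoc, URep.inv_mul_self, one_mul]
  rw [← this, h, mul_zero, zero_mul]

theorem mul_eq_of_conj {Λ : Type*} [Group Λ] (ρ : URep Λ K) (g : Λ) {a b : K →L[ℂ] K}
    (h : ρ g * a * ρ g⁻¹ = b) : ρ g * a = b * ρ g := by
  rw [← h, mul_assoc, URep.inv_mul_self, mul_one]

/-- the joint PVM of `A e₀, A e₁, A e₂, B e₁, B e₂` -/
structure Jt (A B : V → POVM V K) (J : POVM (Fin 5 → V) K) (k D : ℝ) : Prop where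
  pvm : J.IsPVM
  m0 : ∀ f, BM f → J.E (fun z => f (z 0)) = (A (ev 0)).E f
  m1 : ∀ f, BM f → J.E (fun z => f (z 1)) = (A (ev 1)).E f
  m2 : ∀ f, BM f → J.E (fun z => f (z 2)) = (A (ev 2)).E f
  m3 : ∀ f, BM f → J.E (fun z => f (z 3)) = (B (ev 1)).E f
  m4 : ∀ f, BM f → J.E (fun z => f (z 4)) = (B (ev 2)).E f
  k_pos : 0 < k
  D_pos : 0 < D
  ae : ∀ η, ∀ᵐ z ∂J.ν η, (∀ i, z i ≠ 0) ∧ (z 0 ⨯₃ z 1 = k • z 4 ∨ z 0 ⨯₃ z 1 = -(k • z 4)) ∧
    (z 2 ⨯₃ z 0 = k • z 3 ∨ z 2 ⨯₃ z 0 = -(k • z 3)) ∧ |z 0 ⬝ᵥ (z 1 ⨯₃ z 2)| = D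

@[fun_prop] theorem continuous_cross {α : Type*} [TopologicalSpace α] {a b : α → V}
    (ha : Continuous a) (hb : Continuous b) : Continuous fun x => a x ⨯₃ b x := by
  refine continuous_pi fun i => ?_
  fin_cases i <;> simp [cross_apply] <;> fun_prop

@[fun_prop] theorem measurable_cross {α : Type*} [MeasurableSpace α] {a b : α → V}
    (ha : Measurable a) (hb : Measurable b) : Measurable fun x => a x ⨯₃ b x :=
  (continuous_cross continuous_fst continuous_snd).measurable.comp (ha.prodMk hb)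

theorem sg_of_eq {a b : V} (h : a = b ∨ a = -b) : sg a = sg b := by
  rcases h with rfl | rfl
  exacts [rfl, sg_neg b]

variable {I I₃ I₃' : Ind K} {s : K →L[ℂ] K} {L : ℕ → ℝ} {Φ Φ₃ Ψ₃ A B : V → POVM V K}
  {sc sc' : ℝ → ℝ}

namespace XH

variable (h : XH I I₃ I₃' s L Φ Φ₃ Ψ₃ A B sc sc')
include h

theorem covA {x : V} (hx : x ≠ 0) {f : V → ℂ} (hf : BM f) (g : G) :
    I.U g * (A x).E f * I.U g⁻¹ = (A (ac g x)).E f := by
  rw [← U_eq h.two h.conj, ← U_eq h.two h.conj]; exact h.geo.lift.covU x hx f hf g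

theorem covB {y : V} (hy : y ≠ 0) {f : V → ℂ} (hf : BM f) (g : G) :
    I.U g * (B y).E f * I.U g⁻¹ = (B (ac (dl g) y)).E f := by
  rw [← h.geo.lift'.covU y hy f hf (dl g), h.geo.dual.U_eq, h.geo.dual.U_eq, ← map_inv, dl_dl,
    dl_dl, U_eq h.two h.conj, U_eq h.two h.conj]

theorem covΦ₃ {x : V} (hx : x ≠ 0) {f : V → ℂ} (hf : BM f) (g : G) :
    I.U g * (Φ₃ x).E f * I.U g⁻¹ = (Φ₃ (ac g x)).E f := by
  rw [← U_eq h.two h.conj, ← U_eq h.two h.conj]; exact h.geo.pro.covU x hx f hf g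

theorem ρB {y : V} (hy : y ≠ 0) {f : V → ℂ} (hf : BM f) (he : Ev f) (ν : Γ) :
    I₃.ρ ν * (B y).E f * I₃.ρ ν⁻¹ = (B y).E fun a => f (ac (dl (ι ν⁻¹)) a) := by
  have := h.geo.lift'.covρ y hy f hf he (dl ν)
  rwa [h.geo.dual.ρ_eq, h.geo.dual.ρ_eq, ← map_inv, dl_dl, dl_dl, ι_dl] at this

theorem A_N {x : V} (hx : x ≠ 0) {f : V → ℂ} (hf : BM f) : (A x).E f ∈ I₃.N :=
  lift_N h.geo.lift hx hf

theorem B_N {y : V} (hy : y ≠ 0) {f : V → ℂ} (hf : BM f) : (B y).E f ∈ I₃.N :=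
  h.geo.dual.N_eq ▸ lift_N h.geo.lift' hy hf

theorem ΦΦ {x x' : V} (hx : x ≠ 0) (hx' : x' ≠ 0) {f g : V → ℂ} (hf : BM f) (hg : BM g) :
    Commute ((Φ x).E f) ((Φ x').E g) := by
  have u := uniq K I I₃ s Φ Φ₃ h.two.s_sa h.two.s_s h.two.s_U h.conj h.pro h.geo.pro
  have c : Commute ((Φ₃ x).E f) ((Φ₃ x').E g) := by
    rw [h.geo.lift.proj x hx f hf, h.geo.lift.proj x' hx' g hg]
    exact h.com.AA x x' hx hx' _ _ (hf.comp measurable_nrm) (hg.comp measurable_nrm)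
  rw [u x hx f hf, u x' hx' g hg] at c
  exact (RelAux.UI.commute_iff ⟨h.two.s_sa, h.two.s_s⟩).1 c

theorem commute_B2 {S : K →L[ℂ] K} (h0 : ∀ f, BM f → Commute S ((A (ev 0)).E f))
    (h1 : ∀ f, BM f → Commute S ((A (ev 1)).E f)) {f : V → ℂ} (hf : BM f) :
    Commute S ((B (ev 2)).E f) := by
  have e := ev_ne_zero
  obtain ⟨J, hJ, m⟩ := exists_joint (P := ![A (ev 0), A (ev 1), B (ev 2)])
    (fun i => by fin_cases i; exacts [h.geo.lift.pvm _, h.geo.lift.pvm _, h.geo.lift'.pvm _])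
    (fun i k f g hf hg => by
      fin_cases i <;> fin_cases k <;> first
        | exact h.com.AA _ _ (e _) (e _) f g hf hg
        | exact h.com.AB _ _ (e _) (e _) f g hf hg
        | exact (h.com.AB _ _ (e _) (e _) g f hg hf).symm
        | exact (h.geo.lift'.pvm _).commute hf hg)
  obtain ⟨k, hk, hc⟩ := h.com.cross
  have b : BM fun p : V × V => f (sg (k⁻¹ • (p.1 ⨯₃ p.2))) := hf.comp (by fun_prop)
  have e2 : (B (ev 2)).E f = J.E fun z => f (sg (k⁻¹ • (z 0 ⨯₃ z 1))) := by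
    rw [h.geo.lift'.conc _ f hf, ← show _ = (B (ev 2)).E _ from m 2 _ (hf.comp measurable_sg)]
    refine J.E_congr_ae (hf.comp (by fun_prop)) (hf.comp (by fun_prop)) fun η => ?_
    filter_upwards [ae_mem_supp hJ (φ := fun i z => z i) measurable_pi_apply m η,
      ae_ne_zero (measurable_pi_apply 0) (m 0) (h.geo.lift.zero _) η,
      ae_ne_zero (measurable_pi_apply 1) (m 1) (h.geo.lift.zero _) η,
      ae_ne_zero (measurable_pi_apply 2) (m 2) (h.geo.lift'.zero _) η] with z hz z0 z1 z2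
    congr 1
    refine sg_of_eq ((hc z hz fun i => by fin_cases i <;> assumption).imp (fun e => ?_) fun e => ?_)
    · rw [e, inv_smul_smul₀ hk.ne']
    · rw [e, smul_neg, inv_smul_smul₀ hk.ne', neg_neg]
  rw [e2]
  exact commute_two hJ (measurable_pi_apply 0) (measurable_pi_apply 1)
    (fun f hf => (m 0 f hf).symm ▸ h0 f hf) (fun f hf => (m 1 f hf).symm ▸ h1 f hf) b

theorem exists_jt : ∃ J k D, Jt A B J k D := by
  have e := ev_ne_zero
  have BB : ∀ f g, BM f → BM g → Commute ((B (ev 1)).E f) ((B (ev 2)).E g) := fun f g hf hg =>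
    h.commute_B2 (fun g hg => (h.com.AB _ _ (e _) (e _) g f hg hf).symm)
      (fun g hg => (h.com.AB _ _ (e _) (e _) g f hg hf).symm) hg
  obtain ⟨J, hJ, m⟩ := exists_joint (P := ![A (ev 0), A (ev 1), A (ev 2), B (ev 1), B (ev 2)])
    (fun i => by
      fin_cases i
      exacts [h.geo.lift.pvm _, h.geo.lift.pvm _, h.geo.lift.pvm _, h.geo.lift'.pvm _,
        h.geo.lift'.pvm _])
    (fun i k f g hf hg => by
      fin_cases i <;> fin_cases k <;> first
        | exact h.com.AA _ _ (e _) (e _) f g hf hg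
        | exact h.com.AB _ _ (e _) (e _) f g hf hg
        | exact (h.com.AB _ _ (e _) (e _) g f hg hf).symm
        | exact (h.geo.lift'.pvm _).commute hf hg
        | exact BB f g hf hg
        | exact (BB g f hg hf).symm)
  obtain ⟨k, hk, hc⟩ := h.com.cross
  obtain ⟨D, hD, hd⟩ := h.com.det
  obtain ⟨w, w0, w1, w2⟩ := exists_ac_triple (x := ev 2) (x' := ev 0) (x'' := ev 1)
    (by rw [Geo2.ev01, ev_dot_ev]; simp)
  have w3 : ac (dl w) (ev 2) = ev 1 := by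
    rw [← Geo2.ev01, ← ac_cross, w0, w1]
    funext i; fin_cases i <;> simp [cross_apply, ev]
  have hs : supp (word ![A (ev 2), A (ev 0), B (ev 1)])
      ⊆ supp (word ![A (ev 0), A (ev 1), B (ev 2)]) := fun z hz O hO h0 => hz O hO fun f hf hO => by
    have := h0 f hf hO
    rw [word_three] at this ⊢
    have a0 := h.covA (e 0) (hf 0) w
    have a1 := h.covA (e 1) (hf 1) w
    have a2 := h.covB (e 2) (hf 2) w
    rw [w0] at a0
    rw [w1] at a1
    rw [w3] at a2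
    rw [← a0, ← a1, ← a2, conj_mul_conj, conj_mul_conj, this, mul_zero, zero_mul]
  refine ⟨J, k, D, hJ, m 0, m 1, m 2, m 3, m 4, hk, hD, fun η => ?_⟩
  have ms : ∀ (c : Fin 3 → Fin 5) (P : Fin 3 → POVM V K),
      (∀ i, P i = ![A (ev 0), A (ev 1), A (ev 2), B (ev 1), B (ev 2)] (c i)) →
      ∀ᵐ z ∂J.ν η, (fun i => z (c i)) ∈ supp (word P) := fun c P hP =>
    ae_mem_supp hJ (φ := fun i z => z (c i)) (fun i => measurable_pi_apply _)
      (fun i f hf => by rw [hP]; exact m _ f hf) η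
  filter_upwards [ms ![0, 1, 4] ![A (ev 0), A (ev 1), B (ev 2)] (fun i => by fin_cases i <;> rfl),
    ms ![2, 0, 3] ![A (ev 2), A (ev 0), B (ev 1)] (fun i => by fin_cases i <;> rfl),
    ms ![0, 1, 2] ![A (ev 0), A (ev 1), A (ev 2)] (fun i => by fin_cases i <;> rfl),
    ae_ne_zero (measurable_pi_apply 0) (m 0) (h.geo.lift.zero _) η,
    ae_ne_zero (measurable_pi_apply 1) (m 1) (h.geo.lift.zero _) η,
    ae_ne_zero (measurable_pi_apply 2) (m 2) (h.geo.lift.zero _) η,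
    ae_ne_zero (measurable_pi_apply 3) (m 3) (h.geo.lift'.zero _) η,
    ae_ne_zero (measurable_pi_apply 4) (m 4) (h.geo.lift'.zero _) η] with z s1 s2 s3 z0 z1 z2 z3 z4
  exact ⟨fun i => by fin_cases i <;> assumption, hc _ s1 fun i => by fin_cases i <;> assumption,
    hc _ (hs s2) fun i => by fin_cases i <;> assumption,
    hd _ s3 fun i => by fin_cases i <;> assumption⟩

/-- `A e₀` is a function of `B e₁` and `B e₂` -/
theorem commute_A0 {S : K →L[ℂ] K} (h1 : ∀ f, BM f → Commute S ((B (ev 1)).E f))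
    (h2 : ∀ f, BM f → Commute S ((B (ev 2)).E f)) {f : V → ℂ} (hf : BM f) :
    Commute S ((A (ev 0)).E f) := by
  obtain ⟨J, k, D, hJ⟩ := h.exists_jt
  have b : BM fun p : V × V => f (sg ((k ^ 2 / D) • (p.1 ⨯₃ p.2))) := hf.comp (by fun_prop)
  have e2 : (A (ev 0)).E f = J.E fun z => f (sg ((k ^ 2 / D) • (z 3 ⨯₃ z 4))) := by
    rw [h.geo.lift.conc _ f hf, ← hJ.m0 _ (hf.comp measurable_sg)]
    refine J.E_congr_ae (hf.comp (by fun_prop)) (hf.comp (by fun_prop)) fun η => ?_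
    filter_upwards [hJ.ae η] with z ⟨_, c2, c1, d⟩
    congr 1
    have id : (z 2 ⨯₃ z 0) ⨯₃ (z 0 ⨯₃ z 1) = (z 0 ⬝ᵥ (z 1 ⨯₃ z 2)) • z 0 := by
      funext i
      fin_cases i <;> simp [cross_apply, dotProduct, Fin.sum_univ_three] <;> ring
    have hD := hJ.D_pos.ne'
    have e : ∀ u : V, (k ^ 2 / D) • u = D⁻¹ • k • k • u := fun u => by
      rw [smul_smul, smul_smul]; congr 1; ring
    refine sg_of_eq ?_
    rw [e]
    rcases c2 with c2 | c2 <;> rcases c1 with c1 | c1 <;> rcases eq_or_eq_neg_of_abs_eq d with d | d <;>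
      rw [c1, c2, d] at id <;>
      simp only [map_smul, map_neg, LinearMap.smul_apply, LinearMap.neg_apply, neg_neg, neg_smul,
        smul_neg, neg_eq_iff_eq_neg] at id <;>
      simp [id, inv_smul_smul₀ hD]
  rw [e2]
  exact commute_two hJ.pvm (measurable_pi_apply 3) (measurable_pi_apply 4)
    (fun f hf => (hJ.m3 f hf).symm ▸ h1 f hf) (fun f hf => (hJ.m4 f hf).symm ▸ h2 f hf) b

end XH

end Crest.Agent.N111.Cr
end

-- ▼ part N111/X/One

/-!
# Row 111, module X: the boundary points of the second leg commute with the incident lines of the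
third leg.
-/

set_option autoImplicit false
set_option linter.unusedSectionVars false
set_option linter.unusedVariables false

namespace Crest.Agent.N111.Cr

open MeasureTheory Topology Filter Matrix
open scoped InnerProductSpace

variable {K : Type} [NormedAddCommGroup K] [InnerProductSpace ℂ K] [CompleteSpace K]
  {I I₃ I₃' : Ind K} {s : K →L[ℂ] K} {L : ℕ → ℝ} {Φ Φ₃ Ψ₃ A B : V → POVM V K}
  {sc sc' : ℝ → ℝ} {J : POVM (Fin 5 → V) K} {k D : ℝ}

/-- the indicator of a ball -/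
noncomputable def χ (R : ℝ) : V → ℂ := ic (Metric.closedBall 0 R)

theorem bm_χ (R : ℝ) : BM (χ R) := BM.ic Metric.isClosed_closedBall.measurableSet

theorem χ_of_le {R : ℝ} {a : V} (h : ‖a‖ ≤ R) : χ R a = 1 := ic_of_mem (by simpa using h)

theorem χ_of_not {R : ℝ} {a : V} (h : ¬ ‖a‖ ≤ R) : χ R a = 0 := ic_of_notMem (by simpa using h)

theorem ev_χ (R : ℝ) : Ev (χ R) := fun a => by
  by_cases h : ‖a‖ ≤ R
  · rw [χ_of_le h, χ_of_le (by simpa using h)]
  · rw [χ_of_not h, χ_of_not (by simpa using h)]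

/-- the cut-off, moved by `g` -/
noncomputable def κ (R : ℝ) (g : G) (z : Fin 5 → V) : ℂ :=
  χ R (ac g (z 0)) * χ R (ac g (z 1)) * χ R (ac g (z 2)) * χ R (ac (dl g) (z 4))

theorem bm_κ (R : ℝ) (g : G) : BM (κ R g) :=
  ((((bm_χ R).comp (by fun_prop)).mul ((bm_χ R).comp (by fun_prop))).mul
    ((bm_χ R).comp (by fun_prop))).mul ((bm_χ R).comp (by fun_prop))

theorem κ_cases (R : ℝ) (g : G) (z : Fin 5 → V) : κ R g z = 0 ∨ (κ R g z = 1 ∧ ‖ac g (z 0)‖ ≤ R ∧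
    ‖ac g (z 1)‖ ≤ R ∧ ‖ac g (z 2)‖ ≤ R ∧ ‖ac (dl g) (z 4)‖ ≤ R) := by
  by_cases h0 : ‖ac g (z 0)‖ ≤ R <;> by_cases h1 : ‖ac g (z 1)‖ ≤ R <;>
    by_cases h2 : ‖ac g (z 2)‖ ≤ R <;> by_cases h4 : ‖ac (dl g) (z 4)‖ ≤ R <;>
    simp [κ, χ_of_le, χ_of_not, h0, h1, h2, h4]

theorem Jt.E_κ (hJ : Jt A B J k D) (R : ℝ) (g : G) : J.E (κ R g)
    = (A (ev 0)).E (fun a => χ R (ac g a)) * (A (ev 1)).E (fun a => χ R (ac g a))
      * (A (ev 2)).E (fun a => χ R (ac g a)) * (B (ev 2)).E fun a => χ R (ac (dl g) a) := by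
  have b : ∀ g, BM fun a => χ R (ac g a) := fun g => (bm_χ R).comp (by fun_prop)
  have c := fun g (i : Fin 5) => (b g).comp (measurable_pi_apply (X := fun _ : Fin 5 => V) i)
  rw [← hJ.m0 _ (b g), ← hJ.m1 _ (b g), ← hJ.m2 _ (b g), ← hJ.m4 _ (b _),
    ← hJ.pvm _ _ (c _ 0) (c _ 1), ← hJ.pvm _ _ ((c _ 0).mul (c _ 1)) (c _ 2),
    ← hJ.pvm _ _ (((c _ 0).mul (c _ 1)).mul (c _ 2)) (c _ 4)]
  rfl

namespace XH

variable (h : XH I I₃ I₃' s L Φ Φ₃ Ψ₃ A B sc sc') (hJ : Jt A B J k D)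
include h hJ

theorem κ_N (R : ℝ) : J.E (κ R 1) ∈ I₃.N := by
  have b : ∀ g, BM fun a => χ R (ac g a) := fun g => (bm_χ R).comp (by fun_prop)
  rw [hJ.E_κ]
  exact Ind.mul_N (Ind.mul_N (Ind.mul_N (h.A_N (ev_ne_zero _) (b _)) (h.A_N (ev_ne_zero _) (b _)))
    (h.A_N (ev_ne_zero _) (b _))) (h.B_N (ev_ne_zero _) (b _))

theorem ρ_κ (R : ℝ) (μ : Γ) : I₃.ρ μ * J.E (κ R 1) * I₃.ρ μ⁻¹ = J.E (κ R (ι μ⁻¹)) := by
  have a := fun i => h.geo.lift.covρ _ (ev_ne_zero i) _ (bm_χ R) (ev_χ R) μ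
  rw [hJ.E_κ, hJ.E_κ, ← a, ← a, ← a, ← h.ρB (ev_ne_zero _) (bm_χ R) (ev_χ R), conj_mul_conj,
    conj_mul_conj, conj_mul_conj]
  simp only [map_one, ac_one]

/-- finite overlap -/
theorem sum_κ_le (R : ℝ) : ∃ C, 0 ≤ C ∧ ∀ (w : K) (F : Finset Γ),
    ∑ μ ∈ F, ‖J.E (κ R 1) (I₃.ρ μ⁻¹ w)‖ ^ 2 ≤ C ^ 2 * ‖w‖ ^ 2 := by
  classical
  refine ⟨√(nbox (6 * R ^ 3 / D)), Real.sqrt_nonneg _, fun w F => ?_⟩
  let S : Set (Fin 5 → V) := {z | |z 0 ⬝ᵥ (z 1 ⨯₃ z 2)| = D}
  have hS : MeasurableSet S := (isClosed_eq (by fun_prop) continuous_const).measurableSet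
  have e : ∀ μ, ‖J.E (κ R 1) (I₃.ρ μ⁻¹ w)‖ = ‖J.E (fun z => ic S z * κ R (ι μ⁻¹) z) w‖ := fun μ => by
    rw [← (I₃.ρ).norm_map μ, J.E_apply_congr ((BM.ic hS).mul (bm_κ R (ι μ⁻¹))) (bm_κ R (ι μ⁻¹))
      ((hJ.ae w).mono fun z hz => by simp only [ic_of_mem (show z ∈ S from hz.2.2.2), one_mul]),
      ← h.ρ_κ hJ]
    rfl
  simp only [e]
  rw [Real.sq_sqrt (Nat.cast_nonneg _)]
  refine J.sum_norm_E_sq_le F (fun μ _ => (BM.ic hS).mul (bm_κ R _)) (fun z => ?_) w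
  by_cases hz : z ∈ S
  swap
  · simp [hz]
  have : ∀ μ ∈ F, ‖ic S z * κ R (ι μ⁻¹) z‖ ^ 2 = if κ R (ι μ⁻¹) z ≠ 0 then 1 else 0 := fun μ _ => by
    rw [ic_of_mem hz, one_mul]
    rcases κ_cases R (ι μ⁻¹) z with e | ⟨e, -⟩ <;> rw [e] <;> simp
  rw [Finset.sum_congr rfl this, Finset.sum_boole, Nat.cast_le]
  rcases (F.filter fun μ => κ R (ι μ⁻¹) z ≠ 0).eq_empty_or_nonempty with e | ⟨μ₀, h₀⟩
  · rw [e]; simp
  refine card_le_nbox _ (fun μ => μ⁻¹ * μ₀) (fun a _ b _ e => inv_injective (mul_right_cancel e))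
    fun μ hμ => ?_
  obtain ⟨-, a0, a1, a2, -⟩ := (κ_cases R (ι μ₀⁻¹) z).resolve_left (Finset.mem_filter.1 h₀).2
  obtain ⟨-, b0, b1, b2, -⟩ := (κ_cases R (ι μ⁻¹) z).resolve_left (Finset.mem_filter.1 hμ).2
  simpa using mul_inv_mem_box3 hJ.D_pos hz a0 a1 a2 b0 b1 b2

theorem exists_tz : ∃ R : ℝ, I₃.tz (J.E (κ R 1)) ≠ 0 := by
  have t := J.tendsto_E (f := fun n : ℕ => κ n 1) (g := fun _ => 1) (C := 1)
    (fun n => (bm_κ n 1).1) (fun n z => by rcases κ_cases n 1 z with e | e <;> simp [e])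
    (fun z => tendsto_const_nhds.congr' ((eventually_ge_atTop ⌈‖z‖⌉₊).mono fun n hn => by
      have : ∀ i, ‖z i‖ ≤ n := fun i =>
        (norm_le_pi_norm z i).trans ((Nat.le_ceil _).trans (by exact_mod_cast hn))
      simp [κ, χ_of_le, this])) I₃.ξ
  have hξ : 0 < ‖I₃.ξ‖ := norm_pos_iff.2 I₃.ξ_ne
  obtain ⟨n, hn⟩ := (Metric.tendsto_nhds.1 t _ hξ).exists
  refine ⟨n, fun h0 => ?_⟩
  have := Ind.norm_tz_sub_le (h.κ_N hJ n) I₃.one_N
  rw [h0, Ind.tz_one, J.E_star (bm_κ _ _), star_one, le_div_iff₀ hξ,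
    show (fun z => (starRingEnd ℂ) (κ n 1 z)) = κ n 1 from funext fun z => by
      rcases κ_cases n 1 z with e | e <;> simp [e]] at this
  rw [J.E_one, dist_eq_norm] at hn
  simp only [zero_sub, norm_neg, norm_one, one_mul] at this
  exact absurd hn (not_lt.2 this)

theorem norm_κ_B_le (R : ℝ) {e : V → ℂ} (he : BM e) {ε : ℝ} (hε : 0 ≤ ε)
    (hb : ∀ b, ‖b‖ ≤ R → ‖e b‖ ≤ ε) (w : K) :
    ‖J.E (κ R 1) ((B (ev 2)).E e w)‖ ≤ ε * ‖J.E (κ R 1) w‖ := by
  have b := ((bm_χ R).mul he).comp (measurable_pi_apply (X := fun _ : Fin 5 => V) 4)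
  have : J.E (κ R 1) * (B (ev 2)).E e = J.E (fun z => χ R (z 4) * e (z 4)) * J.E (κ R 1) := by
    rw [← hJ.m4 _ he, ← hJ.pvm _ _ (bm_κ _ _) (he.comp (measurable_pi_apply 4)),
      ← hJ.pvm _ _ b (bm_κ _ _)]
    congr 1
    funext z
    rcases κ_cases R 1 z with e | ⟨e, -, -, -, e'⟩
    · simp [e]
    · simp [e, χ_of_le (by simpa using e')]
  rw [← ContinuousLinearMap.mul_apply, this, ContinuousLinearMap.mul_apply]
  refine ContinuousLinearMap.le_of_opNorm_le _ (J.norm_E_le b.1 hε fun z => ?_) _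
  by_cases hz : ‖z 4‖ ≤ R
  · simpa [χ_of_le hz] using hb _ hz
  · simpa [χ_of_not hz] using hε

theorem rb_κ_B (R : ℝ) {C : ℝ} (hC : ∀ (w : K) (F : Finset Γ),
    ∑ μ ∈ F, ‖J.E (κ R 1) (I₃.ρ μ⁻¹ w)‖ ^ 2 ≤ C ^ 2 * ‖w‖ ^ 2) {e : Γ → V → ℂ} (he : ∀ μ, BM (e μ))
    {ε : ℝ} (hε : 0 ≤ ε) (w : K) (F : Finset Γ) (hb : ∀ μ ∈ F, ∀ b, ‖b‖ ≤ R → ‖e μ b‖ ≤ ε) :
    ∑ μ ∈ F, ‖I₃.j (J.E (κ R 1) ((B (ev 2)).E (e μ) (I₃.ρ μ⁻¹ w)))‖ ^ 2 ≤ (ε * C) ^ 2 * ‖w‖ ^ 2 := by
  rw [mul_pow, mul_assoc]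
  refine le_trans (Finset.sum_le_sum fun μ hμ => ?_)
    ((Finset.mul_sum _ _ _).symm.trans_le (mul_le_mul_of_nonneg_left (hC w F) (sq_nonneg ε)))
  rw [← mul_pow]
  refine pow_le_pow_left₀ (norm_nonneg _) ?_ 2
  exact ((I₃.j.le_of_opNorm_le I₃.norm_j_le _).trans_eq (one_mul _)).trans
    (h.norm_κ_B_le hJ R (he μ) hε (hb μ hμ) _)

end XH

/-- the finite net of linear maps -/
theorem exists_net {u : V → ℂ} (hu : UniformContinuous u) (R r : ℝ) {ε : ℝ} (hε : 0 < ε) :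
    ∃ t : Finset (Fin 3 → Fin 3 → ℝ), ∀ (c : ℝ) (g : G), 0 ≤ c → c * nm g ≤ r → ∃ M ∈ t,
      ∀ b : V, ‖b‖ ≤ R → ‖u (c • ac g b) - u (Matrix.of M *ᵥ b)‖ ≤ ε := by
  obtain ⟨δ, hδ, hu⟩ := Metric.uniformContinuous_iff.1 hu ε hε
  obtain ⟨t, ht, hc⟩ := Metric.totallyBounded_iff.1
    (isCompact_closedBall (0 : Fin 3 → Fin 3 → ℝ) r).totallyBounded (δ / (3 * |R| + 1))
    (by positivity)
  refine ⟨ht.toFinset, fun c g hc0 hg => ?_⟩
  obtain ⟨M, hM, hd⟩ := Set.mem_iUnion₂.1 (hc (show c • (fun i j => g i j) ∈ _ by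
    rw [mem_closedBall_zero_iff, norm_smul, Real.norm_of_nonneg hc0]; exact hg))
  refine ⟨M, ht.mem_toFinset.2 hM, fun b hb => ?_⟩
  rw [← dist_eq_norm]
  refine (hu ?_).le
  rw [Metric.mem_ball, dist_eq_norm] at hd
  rw [dist_eq_norm]
  have h1 : ∀ i j, |c * g i j - M i j| ≤ δ / (3 * |R| + 1) := fun i j =>
    ((norm_le_pi_norm _ j).trans (norm_le_pi_norm (c • (fun i j => g i j) - M) i)).trans hd.le
  have h2 : ∀ i j, |(c * g i j - M i j) * b j| ≤ δ / (3 * |R| + 1) * |R| := fun i j => by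
    rw [abs_mul]
    exact mul_le_mul (h1 i j) ((norm_le_pi_norm b j).trans (hb.trans (le_abs_self R)))
      (abs_nonneg _) (by positivity)
  refine (pi_norm_lt_iff hδ).2 fun i => ?_
  have e : (c • ac g b - Matrix.of M *ᵥ b) i = (c * g i 0 - M i 0) * b 0 + (c * g i 1 - M i 1) * b 1
      + (c * g i 2 - M i 2) * b 2 := by
    simp only [Pi.sub_apply, Pi.smul_apply, ac_apply, smul_eq_mul, mulVec, dotProduct,
      Fin.sum_univ_three, Matrix.of_apply]
    ring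
  have : δ / (3 * |R| + 1) * (3 * |R|) < δ := by
    rw [div_mul_eq_mul_div, div_lt_iff₀ (by positivity)]; nlinarith
  rw [e, Real.norm_eq_abs]
  linarith [abs_add_three ((c * g i 0 - M i 0) * b 0) ((c * g i 1 - M i 1) * b 1)
    ((c * g i 2 - M i 2) * b 2), h2 i 0, h2 i 1, h2 i 2]

namespace XH

variable (h : XH I I₃ I₃' s L Φ Φ₃ Ψ₃ A B sc sc')
include h

theorem U_B {u : V → ℂ} (hu : BM u) (n : ℕ) (η : K) : I.U (al n) ((B (ev 2)).E u η)
    = (B (ev 2)).E (fun b => u (sc' (Real.exp (-n)) • b)) (I.U (al n) η) := by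
  have := h.covB (ev_ne_zero 2) hu (al n)
  rw [dl_al, ac_al_of _ (by simp [ev]), h.geo.lift'.scal _ (ev_ne_zero 2) _ (Real.exp_ne_zero _) _ hu]
    at this
  exact congrArg (· η) (mul_eq_of_conj _ _ this)

/-- the approximation of `E T_n` by finitely many elements of `Q` -/
theorem approx {u : V → ℂ} (hu : UniformContinuous u) (hb : ∀ b, ‖u b‖ ≤ 1) (he : Ev u) :
    ∃ (τ : ℂ) (C : ℝ), τ ≠ 0 ∧ ∀ ε > 0, ∀ η₁ η₁' : K,
      ∃ (t : Finset (Fin 3 → Fin 3 → ℝ)) (x : (Fin 3 → Fin 3 → ℝ) → K →L[ℂ] K)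
        (c : ℕ → (Fin 3 → Fin 3 → ℝ) → Γ → ℂ), (∀ M, x M ∈ I.Q) ∧ (∀ n M μ, ‖c n M μ‖ ≤ 1) ∧
        ∀ ζ, ζ = η₁ ∨ ζ = η₁' → ∀ η₂, ∀ᶠ n : ℕ in atTop, ‖τ * ⟪ζ, (B (ev 2)).E u η₂⟫_ℂ
          - ∑ M ∈ t, ⟪I.U (al n) ζ, I₃.m (c n M) (x M (I.U (al n) η₂))⟫_ℂ‖
            ≤ ε * (1 + C * (1 + ‖ζ‖) * ‖η₂‖) := by
  classical
  obtain ⟨J, k, D, hJ⟩ := h.exists_jt
  obtain ⟨R, hR⟩ := h.exists_tz hJ
  obtain ⟨C, hC0, hC⟩ := h.sum_κ_le hJ R
  obtain ⟨C₁, hC₁⟩ := sc_exp_neg h.geo.lift' h.com.lc'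
  have bu : BM u := ⟨hu.continuous.measurable, 1, hb⟩
  have bM : ∀ M : Fin 3 → Fin 3 → ℝ, BM fun b => u (Matrix.of M *ᵥ b) := fun M =>
    bu.comp (by fun_prop : Continuous fun b : V => Matrix.of M *ᵥ b).measurable
  let Z := fun M : Fin 3 → Fin 3 → ℝ => J.E (κ R 1) * (B (ev 2)).E fun b => u (Matrix.of M *ᵥ b)
  have rbZ : ∀ M, I₃.RB (Z M) (1 * C) := fun M w F =>
    h.rb_κ_B hJ R hC (e := fun _ b => u (Matrix.of M *ᵥ b)) (fun _ => bM M) zero_le_one w F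
      fun _ _ _ _ => hb _
  have rbK : I₃.RB (J.E (κ R 1)) (1 * C) := fun w F => by
    simpa [POVM.E_one] using h.rb_κ_B hJ R hC (e := fun _ _ => 1) (fun _ => BM.one) zero_le_one w F
      fun _ _ _ _ => by simp
  have U3 := U_eq h.two h.conj
  refine ⟨_, C, hR, fun ε hε η₁ η₁' => ?_⟩
  obtain ⟨R₁, hR₁⟩ := h.geo.tight.seq η₁ ε hε
  obtain ⟨R₂, hR₂⟩ := h.geo.tight.seq η₁' ε hε
  set R' := max R₁ R₂
  obtain ⟨t, ht⟩ := exists_net hu R (Real.exp (C₁ + R')) hε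
  choose! idx hidx hnear using ht
  let i : ℕ → Γ → Fin 3 → Fin 3 → ℝ := fun n μ => idx (sc' (Real.exp (-n))) (dl (ι μ))
  refine ⟨t, fun M => I₃.xq (Z M), fun n M => ic {μ | μ ∈ Sh (L n) R' ∧ i n μ = M},
    fun M => Q3_Q h.two h.conj ((rbZ M).xq_Q (Ind.mul_N (h.κ_N hJ R) (h.B_N (ev_ne_zero 2) (bM M)))),
    fun n M => norm_ic_le _, fun ζ hζ η₂ => ?_⟩
  have hT : ∀ᶠ n : ℕ in atTop, ‖I₃.mJ (ic (Sh (L n) R')ᶜ) (I.U (al n) ζ)‖ ≤ ε := by
    have mono : ∀ {R₀} (n : ℕ), R₀ ≤ R' → ∀ w, ‖I₃.mJ (ic (Sh (L n) R')ᶜ) w‖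
        ≤ 1 * ‖I₃.mJ (ic (Sh (L n) R₀)ᶜ) w‖ := fun {R₀} n hle w =>
      I₃.norm_mJ_mono (bm_ic_Γ _) zero_le_one (fun μ => by
        by_cases h1 : μ ∈ Sh (L n) R'
        · simp [h1]
        · have : μ ∉ Sh (L n) R₀ := fun h2 => h1 ⟨h2.1.trans hle, h2.2.trans (by linarith)⟩
          simp [h1, this]) w
    rcases hζ with rfl | rfl
    · exact hR₁.mono fun n hn => by
        rw [← U3]; exact (mono n (le_max_left _ _) _).trans (by rwa [one_mul])
    · exact hR₂.mono fun n hn => by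
        rw [← U3]; exact (mono n (le_max_right _ _) _).trans (by rwa [one_mul])
  have mix := rbK.mix (h.κ_N hJ R) ζ ((B (ev 2)).E u η₂)
  simp only [U3] at mix
  filter_upwards [hT, hC₁, Metric.tendsto_nhds.1 mix ε hε] with n h1 h2 h3
  set c := sc' (Real.exp (-n))
  have hc : 0 < c := h.geo.lift'.sc_pos _ (Real.exp_ne_zero _)
  set w := I.U (al n) η₂
  set v := I₃.rw (J.E (κ R 1)) (I.U (al n) ((B (ev 2)).E u η₂)) with hv
  have hw : ‖w‖ = ‖η₂‖ := I.U.norm_map _ _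
  have nv : ‖v‖ ≤ C * ‖η₂‖ := by
    refine (ContinuousLinearMap.le_of_opNorm_le _ (rbK.norm_le (by positivity)) _).trans ?_
    rw [one_mul, I.U.norm_map]
    exact mul_le_mul_of_nonneg_left (by
      simpa using ContinuousLinearMap.le_of_opNorm_le _
        ((B (ev 2)).norm_E_le bu.1 zero_le_one hb) η₂) hC0
  set d := mulG K (ic (Sh (L n) R')) v
    - ∑ M ∈ t, mulG K (ic {μ | μ ∈ Sh (L n) R' ∧ i n μ = M}) (I₃.rw (Z M) w) with hd
  have bc : ∀ μ : Γ, BM fun b => u (c • ac (dl (ι μ)) b) := fun μ => bu.comp (by fun_prop)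
  have hi : ∀ μ ∈ Sh (L n) R', c * nm (dl (ι μ)) ≤ Real.exp (C₁ + R') := fun μ hμ => by
    calc c * nm (dl (ι μ)) ≤ Real.exp (C₁ - L n) * Real.exp (L n + R') :=
          mul_le_mul h2 (Sh.nm_dl_le hμ) (nm_pos _).le (Real.exp_pos _).le
      _ = _ := by rw [← Real.exp_add]; congr 1; ring
  have dμ : ∀ μ, d μ = ic (Sh (L n) R') μ • I₃.j (J.E (κ R 1) ((B (ev 2)).E
      (fun b => u (c • ac (dl (ι μ)) b) - u (Matrix.of (i n μ) *ᵥ b)) (I₃.ρ μ⁻¹ w))) := fun μ => by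
    rw [hd, lp.coeFn_sub, lp.coeFn_sum, Pi.sub_apply, Finset.sum_apply, mulG_apply (bm_ic_Γ _)]
    simp only [mulG_apply (bm_ic_Γ _)]
    by_cases hμ : μ ∈ Sh (L n) R'
    · rw [Finset.sum_eq_single_of_mem (i n μ) (hidx _ _ hc.le (hi μ hμ)) fun M _ hM => by
        rw [ic_of_notMem fun h => hM h.2.symm, zero_smul], ic_of_mem hμ,
        ic_of_mem (show μ ∈ {ν | ν ∈ Sh (L n) R' ∧ i n ν = i n μ} from ⟨hμ, rfl⟩), hv, rbK.apply,
        (rbZ _).apply, h.U_B bu, (B (ev 2)).E_sub (bc μ) (bM _)]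
      have := congrArg (· w) (mul_eq_of_conj _ _ (h.ρB (ev_ne_zero 2)
        (f := fun b => u (c • b)) (bu.comp (by fun_prop)) (fun b => by simp only [smul_neg, he _]) μ⁻¹))
      simp only [ContinuousLinearMap.mul_apply, inv_inv] at this
      simp only [one_smul, ContinuousLinearMap.sub_apply, map_sub, Z, ContinuousLinearMap.mul_apply]
      rw [← this]
    · rw [Finset.sum_eq_zero fun M _ => by rw [ic_of_notMem fun h => hμ h.1, zero_smul],
        ic_of_notMem hμ, zero_smul, zero_smul, sub_zero]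
  have nd : ‖d‖ ≤ ε * C * ‖η₂‖ := by
    refine LG.norm_le (by positivity) fun F => ?_
    rw [mul_pow, ← hw]
    refine le_trans (le_of_eq ?_) (h.rb_κ_B hJ R hC (fun μ => (bc μ).sub (bM (i n μ))) hε.le w
      (F.filter (· ∈ Sh (L n) R')) fun μ hμ => hnear _ _ hc.le (hi μ (Finset.mem_filter.1 hμ).2))
    rw [Finset.sum_filter]
    refine Finset.sum_congr rfl fun μ _ => ?_
    rw [dμ]
    split_ifs with hμ <;> simp [hμ]
  have e1 : ∀ M, ⟪I.U (al n) ζ, I₃.m (ic {μ | μ ∈ Sh (L n) R' ∧ i n μ = M}) (I₃.xq (Z M) w)⟫_ℂ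
      = ⟪I₃.J (I.U (al n) ζ), mulG K (ic {μ | μ ∈ Sh (L n) R' ∧ i n μ = M}) (I₃.rw (Z M) w)⟫_ℂ :=
    fun M => by rw [I₃.inner_m, I₃.mJ_eq (bm_ic_Γ _), J_xq h.two h.conj (rbZ M)]
  have e2 : v = mulG K (ic (Sh (L n) R')) v + mulG K (ic (Sh (L n) R')ᶜ) v := by
    ext μ
    rw [lp.coeFn_add, Pi.add_apply, mulG_apply (bm_ic_Γ _), mulG_apply (bm_ic_Γ _), ← add_smul]
    by_cases hμ : μ ∈ Sh (L n) R' <;> simp [hμ]
  have e3 : ⟪I₃.J (I.U (al n) ζ), v⟫_ℂ - ∑ M ∈ t, ⟪I.U (al n) ζ,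
        I₃.m (ic {μ | μ ∈ Sh (L n) R' ∧ i n μ = M}) (I₃.xq (Z M) w)⟫_ℂ
      = ⟪I₃.J (I.U (al n) ζ), d⟫_ℂ + ⟪I₃.mJ (ic (Sh (L n) R')ᶜ) (I.U (al n) ζ), v⟫_ℂ := by
    have := inner_mulG (K := K) (bm_ic_Γ (Sh (L n) R')ᶜ) (I₃.J (I.U (al n) ζ)) v
    simp only [conj_ic] at this
    rw [I₃.mJ_eq (bm_ic_Γ _), ← this, hd, inner_sub_right, inner_sum]
    simp only [e1]
    conv_lhs => rw [e2, inner_add_right]
    ring
  have b1 : ‖⟪I₃.J (I.U (al n) ζ), d⟫_ℂ‖ ≤ ‖ζ‖ * (ε * C * ‖η₂‖) := by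
    refine (norm_inner_le_norm _ _).trans ?_
    rw [I₃.norm_J, I.U.norm_map]; gcongr
  have b2 : ‖⟪I₃.mJ (ic (Sh (L n) R')ᶜ) (I.U (al n) ζ), v⟫_ℂ‖ ≤ ε * (C * ‖η₂‖) :=
    (norm_inner_le_norm _ _).trans (by gcongr)
  rw [dist_comm, dist_eq_norm] at h3
  refine (norm_sub_le_norm_sub_add_norm_sub _ ⟪I₃.J (I.U (al n) ζ), v⟫_ℂ _).trans ?_
  rw [e3]
  linarith [norm_add_le_of_le b1 b2]

theorem commute_ΦB0 {f u : V → ℂ} (hf : BM f) (h0 : Hom0 f) (hc : ContinuousOn f {0}ᶜ)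
    (hu : UniformContinuous u) (hb : ∀ b, ‖u b‖ ≤ 1) (he : Ev u) :
    Commute ((Φ (ev 0)).E f) ((B (ev 2)).E u) := by
  obtain ⟨τ, C, hτ, H⟩ := h.approx hu hb he
  ext η
  refine ext_inner_left ℂ fun η' => ?_
  set f' := fun a => (starRingEnd ℂ) (f a)
  set T := (Φ (ev 0)).E f
  set T' := (Φ (ev 0)).E f'
  have hT : star T = T' := (Φ (ev 0)).E_star hf
  rw [ContinuousLinearMap.mul_apply, ContinuousLinearMap.mul_apply,
    ← ContinuousLinearMap.adjoint_inner_left, ← ContinuousLinearMap.star_eq_adjoint, hT]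
  refine mul_left_cancel₀ hτ (eq_of_forall_dist_le fun δ hδ => ?_)
  set a := (1 + C * (1 + ‖T' η'‖) * ‖η‖) + (1 + C * (1 + ‖η'‖) * ‖T η‖) + 1
  obtain ⟨t, x, c, hx, hc1, H⟩ := H (δ / (|a| + 1)) (by positivity) η' (T' η')
  have bF : BM fun μ => f (pt μ) := let ⟨C, hC⟩ := hf.2; bm_Γ fun μ => hC _
  have key : ∀ M, Tendsto (fun n : ℕ => ⟪I.U (al n) (T' η'), I₃.m (c n M) (x M (I.U (al n) η))⟫_ℂ
      - ⟪I.U (al n) η', I₃.m (c n M) (x M (I.U (al n) (T η)))⟫_ℂ) atTop (𝓝 0) := fun M => by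
    have t1 := (h.pro.tendsto_m hf.conj (fun z hz a => by simp only [h0 z hz a])
      (Complex.continuous_conj.comp_continuousOn hc) η').norm
    have t2 := (h.pro.sfp h.tight (hx M) hf h0 hc η).norm
    rw [norm_zero] at t1 t2
    have t3 := (t1.mul_const (‖x M‖ * ‖η‖)).add (t2.const_mul ‖η'‖)
    rw [zero_mul, mul_zero, add_zero] at t3
    refine squeeze_zero_norm (fun n => ?_) t3
    set m := I₃.m (c n M)
    have nm : ∀ w, ‖m w‖ ≤ ‖w‖ := fun w => by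
      simpa using ContinuousLinearMap.le_of_opNorm_le _ (I₃.norm_m_le zero_le_one (hc1 n M)) w
    set F := I.m fun μ => f (pt μ)
    have e : ⟪I.m (fun μ => f' (pt μ)) (I.U (al n) η'), m (x M (I.U (al n) η))⟫_ℂ
        = ⟪I.U (al n) η', m (F (x M (I.U (al n) η)))⟫_ℂ := by
      rw [← I.star_m bF, ContinuousLinearMap.star_eq_adjoint, ContinuousLinearMap.adjoint_inner_left,
        ← ContinuousLinearMap.mul_apply F,
        (commute_m_m h.two h.conj bF (bm_Γ (hc1 n M))).eq, ContinuousLinearMap.mul_apply]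
    have e2 : ⟪I.U (al n) (T' η'), m (x M (I.U (al n) η))⟫_ℂ
        - ⟪I.U (al n) η', m (x M (I.U (al n) (T η)))⟫_ℂ
        = -⟪I.m (fun μ => f' (pt μ)) (I.U (al n) η') - I.U (al n) (T' η'), m (x M (I.U (al n) η))⟫_ℂ
          + ⟪I.U (al n) η', m (ContinuousLinearMap.adjoint I.J (I.mJ (fun μ => f (pt μ))
            (x M (I.U (al n) η)) - I.J (x M (I.U (al n) (T η)))))⟫_ℂ := by
      rw [inner_sub_left, e, map_sub, I.adj_J_J, map_sub, inner_sub_right, ← I.m_apply]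
      ring
    rw [e2]
    refine norm_add_le_of_le ?_ ?_
    · rw [norm_neg]
      refine (norm_inner_le_norm _ _).trans (mul_le_mul_of_nonneg_left ((nm _).trans ?_)
        (norm_nonneg _))
      simpa using (x M).le_opNorm (I.U (al n) η)
    · refine (norm_inner_le_norm _ _).trans ?_
      rw [I.U.norm_map]
      exact mul_le_mul_of_nonneg_left ((nm _).trans (I.norm_adj_J_le _)) (norm_nonneg _)
  have key2 := tendsto_finset_sum t fun M _ => key M
  rw [Finset.sum_const_zero] at key2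
  obtain ⟨n, h1, h2, h3⟩ := ((H _ (Or.inr rfl) η).and ((H _ (Or.inl rfl) (T η)).and
    (Metric.tendsto_nhds.1 key2 (δ / (|a| + 1)) (by positivity)))).exists
  rw [dist_zero_right, Finset.sum_sub_distrib] at h3
  rw [← dist_eq_norm] at h1 h2 h3
  have : δ / (|a| + 1) * a ≤ δ := by
    rw [div_mul_eq_mul_div, div_le_iff₀ (by positivity)]
    nlinarith [le_abs_self a]
  linarith [dist_triangle4 (τ * ⟪T' η', (B (ev 2)).E u η⟫_ℂ)
    (∑ M ∈ t, ⟪I.U (al n) (T' η'), I₃.m (c n M) (x M (I.U (al n) η))⟫_ℂ)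
    (∑ M ∈ t, ⟪I.U (al n) η', I₃.m (c n M) (x M (I.U (al n) (T η)))⟫_ℂ)
    (τ * ⟪η', (B (ev 2)).E u (T η)⟫_ℂ), dist_comm (τ * ⟪η', (B (ev 2)).E u (T η)⟫_ℂ)
    (∑ M ∈ t, ⟪I.U (al n) η', I₃.m (c n M) (x M (I.U (al n) (T η)))⟫_ℂ)]

/-- **X1** -/
theorem commute_ΦB {x y : V} (hx : x ≠ 0) (hy : y ≠ 0) (hxy : x ⬝ᵥ y = 0) {f u : V → ℂ}
    (hf : BM f) (hu : BM u) : Commute ((Φ x).E f) ((B y).E u) := by
  have h1 : ∀ f, BM f → Hom0 f → ContinuousOn f {0}ᶜ → ∀ u, BM u →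
      Commute ((Φ (ev 0)).E f) ((B (ev 2)).E u) := fun f hf h0 hc u hu => by
    let W : (V → ℂ) → K →L[ℂ] K := fun u => (B (ev 2)).E (fun b => 1 * u b)
      + (B (ev 2)).E fun b => 1 * u (-b)
    have p1 := (B (ev 2)).isPoly1.comp measurable_id BM.one
    have p2 := (B (ev 2)).isPoly1.comp measurable_neg BM.one
    have pW : MClass fun u => (Φ (ev 0)).E f * (B (ev 2)).E (fun b => 1 * u b) * 1
        - 1 * (B (ev 2)).E (fun b => 1 * u b) * (Φ (ev 0)).E f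
        = 1 * (B (ev 2)).E (fun b => 1 * u (-b)) * (Φ (ev 0)).E f
        - (Φ (ev 0)).E f * (B (ev 2)).E (fun b => 1 * u (-b)) * 1 :=
      ((p1.mul _ _).sub (p1.mul _ _)).mclass ((p2.mul _ _).sub (p2.mul _ _))
    have := pW.of_cc (fun u hc' hs => by
      obtain ⟨C, hC0, hC⟩ := (BM.of_compactSupport hc' hs).exists_nonneg
      have bu := BM.of_compactSupport hc' hs
      have hn : HasCompactSupport fun b => u (-b) := hs.comp_homeomorph (Homeomorph.neg V)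
      have := h.commute_ΦB0 hf h0 hc (u := fun b => ((2 * C + 1 : ℝ) : ℂ)⁻¹ * (u b + u (-b)))
        (HasCompactSupport.uniformContinuous_of_continuous (hs.add hn).mul_left (by fun_prop))
        (fun b => by
          rw [norm_mul, norm_inv, Complex.norm_real, Real.norm_of_nonneg (by positivity),
            inv_mul_le_iff₀ (by positivity)]
          linarith [norm_add_le (u b) (u (-b)), hC b, hC (-b)])
        fun b => by simp only [neg_neg, add_comm]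
      rw [(B _).E_smul _ (bu.add (bu.comp measurable_neg)), (B _).E_add bu (bu.comp measurable_neg)]
        at this
      have h2 := (this.smul_right ((2 * C + 1 : ℝ) : ℂ)).eq
      rw [smul_inv_smul₀ (Complex.ofReal_ne_zero.2 (by positivity)), mul_add, add_mul] at h2
      simp only [one_mul, mul_one]
      rw [sub_eq_sub_iff_add_eq_add, h2, add_comm]) (hu.comp measurable_sg)
    simp only [one_mul, mul_one, sg_neg, ← h.geo.lift'.conc _ u hu] at this
    have h3 : (2 : ℂ) • ((Φ (ev 0)).E f * (B (ev 2)).E u) = (2 : ℂ) • ((B (ev 2)).E u * (Φ (ev 0)).E f) := by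
      rw [two_smul, two_smul, ← sub_eq_sub_iff_add_eq_add, this]
    exact smul_right_injective _ two_ne_zero h3
  have h2 : Commute ((Φ (ev 0)).E f) ((B (ev 2)).E u) := by
    have := (((Φ (ev 0)).isPoly1.mul 1 ((B (ev 2)).E u)).ext_hom0
      ((Φ (ev 0)).isPoly1.mul ((B (ev 2)).E u) 1) fun f hf h0 hc => by
        simpa using (h1 f hf h0 hc u hu).eq) _ (hf.comp (measurable_sg.comp measurable_nrm))
      (hom0_sg_nrm f)
    rw [h.pro.conc _ f hf]
    simpa using! this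
  obtain ⟨g, rfl, rfl⟩ := exists_ac_flag hx hy hxy
  rw [← h.pro.covU _ (ev_ne_zero 0) f hf, ← h.covB (ev_ne_zero 2) hu]
  exact commute_conj _ _ h2

/-- `Φ x` commutes with the lifted point `A x` of the other leg -/
theorem commute_ΦA {x : V} (hx : x ≠ 0) {f u : V → ℂ} (hf : BM f) (hu : BM u) :
    Commute ((Φ x).E f) ((A x).E u) := by
  obtain ⟨g, rfl⟩ := exists_ac_ev hx 0
  rw [← h.pro.covU _ (ev_ne_zero 0) f hf, ← h.covA (ev_ne_zero 0) hu]
  exact commute_conj _ _ (h.commute_A0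
    (fun u hu => h.commute_ΦB (ev_ne_zero 0) (ev_ne_zero 1) (by simp [ev_dot_ev]) hf hu)
    (fun u hu => h.commute_ΦB (ev_ne_zero 0) (ev_ne_zero 2) (by simp [ev_dot_ev]) hf hu) hu)

end XH

end Crest.Agent.N111.Cr
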